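import Vale.Agent.P146.Pw2.T1Defs

/-!
# P146, polynomial lower bound, Parisi side: the average of `F'²` is Lipschitz
-/

open MeasureTheory ProbabilityTheory Filter Topology Set

namespace Vale.Agent.P146.Pw2

open Vale.Agent.P157.Par
open Vale.Agent.P146.Gap

variable {C g v : ℝ} {F : ℝ → ℝ}

theorem blk_lip (h : Adm C F) (hg : 0 < g) (hg1 : g ≤ 1) (v y : ℝ) :
    |tlt g v F (fun x => iteratedDeriv 1 F x ^ 2) y -
      tlt g v F (fun x => iteratedDeriv 1 F x ^ 2) 0| ≤ 4 * min 1 |y| := by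
  have hE := minb_ec h
  have hS := hE.sm
  have hM : ∀ x, |iteratedDeriv 1 F x| ≤ 1 := hE.abs_M
  have hD : ∀ x, |iteratedDeriv 2 F x| ≤ 1 := hS.bD
  have hM2 : ∀ x, |iteratedDeriv 1 F x ^ 2| ≤ 1 := fun x => by
    rw [abs_pow]
    exact pow_le_one₀ (abs_nonneg _) (hM x)
  have hcM := hS.cont1
  have hd : ∀ x, HasDerivAt (fun x => iteratedDeriv 1 F x ^ 2)
      (2 * iteratedDeriv 1 F x * iteratedDeriv 2 F x) x := fun x => by
    have := (hS.d2 x).pow 2
    refine this.congr_deriv ?_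
    simp
  have hb' : ∀ x, |2 * iteratedDeriv 1 F x * iteratedDeriv 2 F x| ≤ 2 := fun x => by
    rw [abs_mul, abs_mul, abs_of_pos (by norm_num : (0 : ℝ) < 2)]
    have := mul_le_mul (hM x) (hD x) (abs_nonneg _) zero_le_one
    linarith
  have hc' : Continuous fun x => 2 * iteratedDeriv 1 F x * iteratedDeriv 2 F x :=
    (continuous_const.mul hcM).mul hS.cD
  have hder := fun x => hS.tlt_deriv hd hM2 hc' hb' g v x
  have hbd : ∀ x, |tlt g v F (fun y => 2 * iteratedDeriv 1 F y * iteratedDeriv 2 F y +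
      g * iteratedDeriv 1 F y * iteratedDeriv 1 F y ^ 2) x -
      tlt g v F (fun x => iteratedDeriv 1 F x ^ 2) x * (g * tlt g v F (iteratedDeriv 1 F) x)| ≤ 4 := by
    intro x
    have h1 : |tlt g v F (fun y => 2 * iteratedDeriv 1 F y * iteratedDeriv 2 F y +
        g * iteratedDeriv 1 F y * iteratedDeriv 1 F y ^ 2) x| ≤ 3 := by
      refine hS.abs_tlt_le (by fun_prop) (fun y => ?_) g v x
      refine (abs_add_le _ _).trans ?_
      have h2 := hb' y
      have h3 : |g * iteratedDeriv 1 F y * iteratedDeriv 1 F y ^ 2| ≤ 1 := by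
        rw [abs_mul, abs_mul, abs_of_pos hg]
        have a := mul_le_mul hg1 (hM y) (abs_nonneg _) zero_le_one
        have b := mul_le_mul a (hM2 y) (abs_nonneg _) (by norm_num)
        linarith
      linarith
    have h4 : |tlt g v F (fun x => iteratedDeriv 1 F x ^ 2) x| ≤ 1 :=
      hS.abs_tlt_le (hcM.pow 2) hM2 g v x
    have h5 := hS.abs_tlt_le hcM hM g v x
    have h6 : |tlt g v F (fun x => iteratedDeriv 1 F x ^ 2) x *
        (g * tlt g v F (iteratedDeriv 1 F) x)| ≤ 1 := by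
      rw [abs_mul, abs_mul, abs_of_pos hg]
      have a := mul_le_mul hg1 h5 (abs_nonneg _) zero_le_one
      have b := mul_le_mul h4 a (mul_nonneg hg.le (abs_nonneg _)) zero_le_one
      linarith
    have := abs_sub (tlt g v F (fun y => 2 * iteratedDeriv 1 F y * iteratedDeriv 2 F y +
      g * iteratedDeriv 1 F y * iteratedDeriv 1 F y ^ 2) x)
      (tlt g v F (fun x => iteratedDeriv 1 F x ^ 2) x * (g * tlt g v F (iteratedDeriv 1 F) x))
    linarith
  have hlip := convex_univ.norm_image_sub_le_of_norm_hasDerivWithin_le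
    (f := tlt g v F (fun x => iteratedDeriv 1 F x ^ 2)) (s := Set.univ) (C := 4)
    (fun x _ => (hder x).hasDerivWithinAt) (fun x _ => by rw [Real.norm_eq_abs]; exact hbd x)
    (mem_univ 0) (mem_univ y)
  rw [Real.norm_eq_abs, Real.norm_eq_abs, sub_zero] at hlip
  have hf : ∀ x, 0 ≤ tlt g v F (fun x => iteratedDeriv 1 F x ^ 2) x ∧
      tlt g v F (fun x => iteratedDeriv 1 F x ^ 2) x ≤ 1 := fun x => by
    constructor
    · have := hS.tlt_mono (g := fun _ => (0 : ℝ)) (g' := fun x => iteratedDeriv 1 F x ^ 2)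
        continuous_const (K := 0) (fun _ => by simp) (hcM.pow 2) hM2 (fun x => sq_nonneg _) g v x
      rwa [hS.tlt_const] at this
    · exact (le_abs_self _).trans (hS.abs_tlt_le (hcM.pow 2) hM2 g v x)
  have h1 : |tlt g v F (fun x => iteratedDeriv 1 F x ^ 2) y -
      tlt g v F (fun x => iteratedDeriv 1 F x ^ 2) 0| ≤ 4 * 1 := by
    obtain ⟨a1, a2⟩ := hf y
    obtain ⟨b1, b2⟩ := hf 0
    rw [abs_le]
    constructor <;> linarith
  rcases le_total 1 |y| with h2 | h2
  · rw [min_eq_left h2]; exact h1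
  · rw [min_eq_right h2]; exact hlip

end Vale.Agent.P146.Pw2
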