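import Vale.Agent.P146.Sk.SDefs
import Vale.Agent.P146.Sk.Nrm
import Vale.Agent.P146.Sk.Hier
import Vale.Agent.P146.Sk.Rcr

/-!
# P146, polynomial lower bound of the variance: definitions

`G(z) = (z - W)⁻¹` with `z = 2 + i y`, `G = A - i B`.
-/

open MeasureTheory ProbabilityTheory Matrix Filter Topology

namespace Vale.Agent.P146.Pw2

open Vale.Agent.P157 (spin)
open Vale.Agent.P157.Lv
open Vale.Agent.P157.Par (Path Exponents topN lw spinPart)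
open Vale.Agent.P146.Sk
open Vale.Agent.P166.F (Lam)
open Vale.Agent.P146.Sk.Gen (GI gz gl r0 gS gF gOb gIsOpt GD gV)

variable {N : ℕ}

/-- `H = ((2 - W)² + y²)⁻¹`. -/
noncomputable def Hy (y : ℝ) (W : Matrix (Fin N) (Fin N) ℝ) : Matrix (Fin N) (Fin N) ℝ :=
  (((2 : ℝ) • 1 - W) * ((2 : ℝ) • 1 - W) + (y ^ 2) • 1)⁻¹

/-- The real part of `(2 + i y - W)⁻¹`. -/
noncomputable def Ay (y : ℝ) (W : Matrix (Fin N) (Fin N) ℝ) : Matrix (Fin N) (Fin N) ℝ :=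
  ((2 : ℝ) • 1 - W) * Hy y W

/-- Minus the imaginary part of `(2 + i y - W)⁻¹`. -/
noncomputable def By (y : ℝ) (W : Matrix (Fin N) (Fin N) ℝ) : Matrix (Fin N) (Fin N) ℝ :=
  y • Hy y W

/-- Normalized traces. -/
noncomputable def tA (N : ℕ) (y : ℝ) (g : Ix N → ℝ) : ℝ := 1 / N * (Ay y (Wm N g)).trace

/-- Normalized traces. -/
noncomputable def tB (N : ℕ) (y : ℝ) (g : Ix N → ℝ) : ℝ := 1 / N * (By y (Wm N g)).trace

/-- Their means. -/
noncomputable def mA (N : ℕ) (y : ℝ) : ℝ := ∫ g, tA N y g ∂(gI (Ix N))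

/-- Their means. -/
noncomputable def mB (N : ℕ) (y : ℝ) : ℝ := ∫ g, tB N y g ∂(gI (Ix N))

/-- `ζ = z - E τ`. -/
noncomputable def zt (N : ℕ) (y : ℝ) : ℂ := ⟨2 - mA N y, y + mB N y⟩

/-- The energy with the parameters `a, b`. -/
noncomputable def Ey (N : ℕ) (β y a b : ℝ) : (Ix N → ℝ) → (Fin N → Bool) → ℝ := fun g x =>
  β / 2 * (a * qf (Wm N g) (spin x) - b * qf (By y (Wm N g)) (spin x)) - N * Real.log 2

/-- The system with fields. -/
noncomputable abbrev sy (N K : ℕ) (m : ℕ → ℝ) (β y a b : ℝ) (s : ℕ → ℝ) :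
    Sy (GI (Ix N) N K) (Fin N → Bool) := gS K m (Ey N β y a b) spin s

/-- `(1/N) E x · W x`. -/
noncomputable def Tw {N K : ℕ} (S : Sy (GI (Ix N) N K) (Fin N → Bool)) : ℝ :=
  1 / N * S.Ex (fun z x => qf (Wm N (r0 z)) (spin x))

/-- `(1/N) E x · B x`. -/
noncomputable def Tb {N K : ℕ} (y : ℝ) (S : Sy (GI (Ix N) N K) (Fin N → Bool)) : ℝ :=
  1 / N * S.Ex (fun z x => qf (By y (Wm N (r0 z))) (spin x))

/-- `(1/N) E ⟨x · B x⟩` for the SK model. -/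
noncomputable def Jy (β y : ℝ) (N : ℕ) : ℝ :=
  1 / N * ∫ g, gav β N g (fun x => qf (By y (Wm N g)) (spin x)) ∂(gI (Ix N))

/-- The sum of the deviations of the overlaps. -/
noncomputable def Vd {N K : ℕ} (m : ℕ → ℝ) (S : Sy (GI (Ix N) N K) (Fin N → Bool)) : ℝ :=
  ∑ l ∈ Finset.range (K + 1), (m (l + 1) - m l) * dev2 S l

/-- `φ(λ) = -Im (ζ / (ζ - c λ)²)`. -/
noncomputable def phi (ζ : ℂ) (c lam : ℝ) : ℝ := -(ζ / (ζ - (c : ℂ) * lam) ^ 2).im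

/-- `Φ(q) = ∫₀¹ φ(Λ_q(u)) du`. -/
noncomputable def PHI (ζ : ℂ) (c : ℝ) (K : ℕ) (m q : ℕ → ℝ) : ℝ :=
  ∫ u in (0 : ℝ)..1, phi ζ c (Lam K m q u)

/-- The uniform grid of exponents. -/
noncomputable def gm (n : ℕ) (l : ℕ) : ℝ := (l : ℝ) / (n + 1)

lemma gm_exponents (n : ℕ) : Exponents n (gm n) := by
  refine ⟨by simp [gm], ?_, fun l _ => ?_⟩
  · unfold gm
    push_cast
    exact div_self (by positivity)
  · unfold gm
    push_cast
    gcongr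
    linarith

lemma gm_sub (n l : ℕ) : gm n (l + 1) - gm n l = 1 / (n + 1) := by
  unfold gm
  push_cast
  ring

end Vale.Agent.P146.Pw2
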