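import Vale.Agent.P146.Pw2.T1Stat
import Vale.Agent.P146.Pw2.Defs

/-!
# P146 / Pw2 / SPLIT0 (P3): the upper bound of the response at zero
-/

open MeasureTheory ProbabilityTheory Filter Topology Set

namespace Vale.Agent.P146.Pw2

open Vale.Agent.P157.Par Vale.Agent.P146.Gap

/-- Change of the tilt exponent, for any two tilts. -/
theorem Rf_tilt2 (S : ℝ) : ∃ K : ℝ, 0 ≤ K ∧ ∀ (C g g₁ g₂ s₁ : ℝ) (F : ℝ → ℝ), Adm C F → 0 < g →
    g ≤ 1 → 0 < g₁ → g₁ ≤ g₂ → g₂ ≤ 1 → s₁ ≤ S → ∀ τ ∈ Icc 0 s₁,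
      Rf g₂ g s₁ F τ ≤ Rf g₁ g s₁ F τ + K * (g₂ - g₁) * τ := by
  refine ⟨√S * ∫ z, |z| ^ 3 * Real.exp (√S * |z|) ∂(gaussianReal 0 1), ?_, ?_⟩
  · exact mul_nonneg (Real.sqrt_nonneg _) (integral_nonneg fun z => by positivity)
  intro C g₀ g g' s₁ F h hg₀ hg₀1 hg hgg hg'1 hS τ hτ
  have hg1 : g ≤ 1 := hgg.trans hg'1
  set I := ∫ z, |z| ^ 3 * Real.exp (√S * |z|) ∂(gaussianReal 0 1) with hI
  have hE := first_ec h hg₀ hg₀1 hτ
  set G := gstep g₀ (s₁ - τ) F with hG
  set M := first_f g₀ s₁ F 1 τ with hM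
  set D := first_f g₀ s₁ F 2 τ with hD
  set w : ℝ → ℝ := fun y => G y + -(G 0) with hw
  have hw0 : ∀ y, 0 ≤ w y := fun y => by
    have := first_min hE y
    simp only [hw]; linarith
  have hw1 : ∀ y, w y ≤ |y| := fun y => by
    have := hE.sm.lip y 0
    rw [sub_zero, one_mul] at this
    exact (le_abs_self _).trans this
  have hwS : Sm 1 1 w M D :=
    ⟨fun x => by simpa [hw] using (hE.d1 x).add_const (-(G 0)), hE.d2, hE.cD, hE.sm.bM, hE.sm.bD⟩
  have hMc : Continuous fun x => M x * M x := hE.sm.cont1.mul hE.sm.cont1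
  have hMb : ∀ x, |M x * M x| ≤ 1 := fun x => by
    rw [abs_mul]
    have := hE.abs_M x
    nlinarith [abs_nonneg (M x)]
  have e : ∀ m : ℝ, tlt m τ G (fun x => M x * M x) 0 = tlt m τ w (fun x => M x * M x) 0 :=
    fun m => (sp5_tlt_add_const m τ (-(G 0)) G (fun x => M x * M x) 0).symm
  rw [first_Rf_eq, first_Rf_eq]
  simp only []
  rw [← hG, ← hM, e, e]
  unfold tlt
  set A' := ∫ z, M (0 + √τ * z) * M (0 + √τ * z) * Real.exp (g' * w (0 + √τ * z))
    ∂(gaussianReal 0 1) with hA'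
  set Z' := ∫ z, Real.exp (g' * w (0 + √τ * z)) ∂(gaussianReal 0 1) with hZ'
  set A := ∫ z, M (0 + √τ * z) * M (0 + √τ * z) * Real.exp (g * w (0 + √τ * z))
    ∂(gaussianReal 0 1) with hA
  set Z := ∫ z, Real.exp (g * w (0 + √τ * z)) ∂(gaussianReal 0 1) with hZ
  have hτ0 : 0 ≤ τ := hτ.1
  have hτS : τ ≤ S := hτ.2.trans hS
  have hZ1 : 1 ≤ Z := by
    have h1 : ∫ _z : ℝ, (1 : ℝ) ∂(gaussianReal 0 1) = 1 := by simp
    rw [← h1, hZ]
    refine integral_mono (integrable_const _) (hwS.integrable_exp g τ 0) fun z => ?_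
    exact Real.one_le_exp (mul_nonneg hg.le (hw0 _))
  have hZZ : Z ≤ Z' := by
    refine integral_mono (hwS.integrable_exp g τ 0) (hwS.integrable_exp g' τ 0) fun z => ?_
    exact Real.exp_le_exp.2 (mul_le_mul_of_nonneg_right hgg (hw0 _))
  have hA'0 : 0 ≤ A' := integral_nonneg fun z => mul_nonneg (mul_self_nonneg _) (Real.exp_pos _).le
  have hAA : A' ≤ A + √S * I * (g' - g) * τ := by
    have h1 : A + √S * I * (g' - g) * τ = ∫ z, (M (0 + √τ * z) * M (0 + √τ * z) *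
        Real.exp (g * w (0 + √τ * z)) + (√S * (g' - g) * τ) *
          (|z| ^ 3 * Real.exp (√S * |z|))) ∂(gaussianReal 0 1) := by
      rw [integral_add (hwS.integrable hMc hMb g τ 0) ((first_cube_int _).const_mul _),
        integral_const_mul]
      ring
    rw [h1, hA']
    refine integral_mono (hwS.integrable hMc hMb g' τ 0)
      ((hwS.integrable hMc hMb g τ 0).add ((first_cube_int _).const_mul _)) fun z => ?_
    simp only [zero_add]
    set y := √τ * z with hy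
    have hη : 0 ≤ g' - g := by linarith
    have k1 : Real.exp (g' * w y) - Real.exp (g * w y) ≤ (g' - g) * |y| * Real.exp |y| := by
      have k2 : Real.exp (g * w y) = Real.exp (g' * w y) * Real.exp (-((g' - g) * w y)) := by
        rw [← Real.exp_add]; congr 1; ring
      have k3 := Real.add_one_le_exp (-((g' - g) * w y))
      have k4 : Real.exp (g' * w y) ≤ Real.exp |y| := by
        apply Real.exp_le_exp.2
        have := hw0 y
        have := hw1 y
        nlinarith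
      have k5 : 0 ≤ (g' - g) * w y := mul_nonneg hη (hw0 y)
      calc Real.exp (g' * w y) - Real.exp (g * w y)
          = Real.exp (g' * w y) * (1 - Real.exp (-((g' - g) * w y))) := by rw [k2]; ring
        _ ≤ Real.exp (g' * w y) * ((g' - g) * w y) :=
            mul_le_mul_of_nonneg_left (by linarith) (Real.exp_pos _).le
        _ ≤ Real.exp |y| * ((g' - g) * |y|) :=
            mul_le_mul k4 (mul_le_mul_of_nonneg_left (hw1 y) hη) k5 (Real.exp_pos _).le
        _ = _ := by ring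
    have k6 : M y * M y ≤ y ^ 2 := by rw [← sq]; exact first_M_le hE y
    have k7 : |y| = √τ * |z| := by rw [hy, abs_mul, abs_of_nonneg (Real.sqrt_nonneg τ)]
    have k8 : √τ ≤ √S := Real.sqrt_le_sqrt hτS
    have k9 : (g' - g) * |y| ^ 3 * Real.exp |y| ≤
        √S * (g' - g) * τ * (|z| ^ 3 * Real.exp (√S * |z|)) := by
      have j1 : Real.exp |y| ≤ Real.exp (√S * |z|) := by
        rw [k7]
        exact Real.exp_le_exp.2 (mul_le_mul_of_nonneg_right k8 (abs_nonneg _))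
      have j2 : |y| ^ 3 = √τ * τ * |z| ^ 3 := by
        rw [k7, mul_pow, pow_succ, Real.sq_sqrt hτ0]; ring
      calc (g' - g) * |y| ^ 3 * Real.exp |y|
          ≤ (g' - g) * (√S * τ * |z| ^ 3) * Real.exp (√S * |z|) := by
            refine mul_le_mul (mul_le_mul_of_nonneg_left ?_ hη) j1 (Real.exp_pos _).le ?_
            · rw [j2]
              exact mul_le_mul_of_nonneg_right (mul_le_mul_of_nonneg_right k8 hτ0)
                (by positivity)
            · have := Real.sqrt_nonneg S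
              positivity
        _ = _ := by ring
    have k10 : M y * M y * (Real.exp (g' * w y) - Real.exp (g * w y)) ≤
        (g' - g) * |y| ^ 3 * Real.exp |y| := by
      have j3 : 0 ≤ Real.exp (g' * w y) - Real.exp (g * w y) := by
        have := Real.exp_le_exp.2 (mul_le_mul_of_nonneg_right hgg (hw0 y))
        linarith
      calc M y * M y * (Real.exp (g' * w y) - Real.exp (g * w y))
          ≤ y ^ 2 * ((g' - g) * |y| * Real.exp |y|) :=
            mul_le_mul k6 k1 j3 (sq_nonneg _)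
        _ = _ := by rw [← sq_abs]; ring
    linarith
  have hZ0 : 0 < Z := by linarith
  have hr : 0 ≤ √S * I * (g' - g) * τ := by
    have : 0 ≤ I := integral_nonneg fun z => by positivity
    have := Real.sqrt_nonneg S
    have : 0 ≤ g' - g := by linarith
    positivity
  calc A' / Z' ≤ A' / Z := div_le_div_of_nonneg_left hA'0 hZ0 hZZ
    _ ≤ (A + √S * I * (g' - g) * τ) / Z := div_le_div_of_nonneg_right hAA hZ0.le
    _ = A / Z + √S * I * (g' - g) * τ / Z := add_div _ _ _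
    _ ≤ A / Z + √S * I * (g' - g) * τ := by
        have := div_le_self hr hZ1
        linarith

/-- the derivative at `0` of a function with small integrals -/
theorem split_real {V a : ℝ} {R M : ℝ → ℝ} (hV : 0 < V) (hR : ContinuousOn R (Icc 0 V))
    (hM : ContinuousOn M (Icc 0 V)) (hd : ∀ τ ∈ Ioo 0 V, HasDerivAt R (M τ) τ) (h0 : R 0 = 0)
    (hle : ∀ t ∈ Ioc 0 V, ∫ τ in (0 : ℝ)..t, R τ ≤ a * t ^ 2 / 2) : M 0 ≤ a := by
  by_contra hcon
  push Not at hcon
  have hε : 0 < (M 0 - a) / 2 := by linarith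
  obtain ⟨δ, hδ, hball⟩ := Metric.continuousOn_iff.1 hM 0 (left_mem_Icc.2 hV.le) _ hε
  set t := min (δ / 2) V with ht
  have ht0 : 0 < t := lt_min (by positivity) hV
  have htV : t ≤ V := min_le_right _ _
  have htδ : t < δ := (min_le_left _ _).trans_lt (by linarith)
  have hMlow : ∀ τ ∈ Ioo 0 t, a + (M 0 - a) / 2 ≤ M τ := by
    intro τ hτ
    have h1 := hball τ ⟨hτ.1.le, hτ.2.le.trans htV⟩ (by
      rw [Real.dist_eq, sub_zero, abs_of_pos hτ.1]
      exact hτ.2.trans htδ)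
    rw [Real.dist_eq] at h1
    have := (abs_lt.1 h1).1
    linarith
  have hRlow : ∀ τ ∈ Icc 0 t, (a + (M 0 - a) / 2) * τ ≤ R τ := by
    intro τ hτ
    rcases hτ.1.eq_or_lt with h | h
    · rw [← h, h0, mul_zero]
    · obtain ⟨ξ, hξ, he⟩ := exists_hasDerivAt_eq_slope R M h
        (hR.mono (Icc_subset_Icc_right (hτ.2.trans htV)))
        (fun x hx => hd x ⟨hx.1, hx.2.trans_le (hτ.2.trans htV)⟩)
      rw [h0, sub_zero, sub_zero, eq_div_iff h.ne'] at he
      rw [← he]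
      exact mul_le_mul_of_nonneg_right (hMlow ξ ⟨hξ.1, hξ.2.trans_le hτ.2⟩) h.le
  have h1 : ∫ τ in (0 : ℝ)..t, (a + (M 0 - a) / 2) * τ ≤ ∫ τ in (0 : ℝ)..t, R τ :=
    intervalIntegral.integral_mono_on ht0.le ((by fun_prop : Continuous fun τ : ℝ =>
      (a + (M 0 - a) / 2) * τ).intervalIntegrable _ _)
      ((hR.mono (Icc_subset_Icc_right htV)).intervalIntegrable_of_Icc ht0.le) hRlow
  have h2 : ∫ τ in (0 : ℝ)..t, (a + (M 0 - a) / 2) * τ = (a + (M 0 - a) / 2) * t ^ 2 / 2 := by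
    rw [intervalIntegral.integral_const_mul, integral_id]
    ring
  have h3 := hle t ⟨ht0, htV⟩
  have h4 : 0 < (M 0 - a) / 2 * t ^ 2 := by positivity
  nlinarith

/-- raising a level from zero -/
theorem split_A {b K S C g g₁ V : ℝ} {G : ℝ → ℝ} (hb : 0 < b)
    (htilt : ∀ (C g g₁ g₂ s₁ : ℝ) (F : ℝ → ℝ), Adm C F → 0 < g →
      g ≤ 1 → 0 < g₁ → g₁ ≤ g₂ → g₂ ≤ 1 → s₁ ≤ S → ∀ τ ∈ Icc 0 s₁,
        Rf g₂ g s₁ F τ ≤ Rf g₁ g s₁ F τ + K * (g₂ - g₁) * τ) (hG : Adm C G)
    (hg₁ : 0 < g₁) (hgg : g₁ < g) (hg1 : g ≤ 1) (hV : 0 < V) (hVS : V ≤ S)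
    (hmin : ∀ t ∈ Ioc 0 V, gstep g V G 0 ≤
      gstep g₁ t (gstep g (V - t) G) 0 + (g - g₁) * t ^ 2 / (4 * b ^ 2)) :
    iteratedDeriv 2 (gstep g V G) 0 ^ 2 ≤ 1 / b ^ 2 + K * (g - g₁) := by
  have hg : 0 < g := hg₁.trans hgg
  have hg₁1 : g₁ ≤ 1 := hgg.le.trans hg1
  rw [← Mf_zero hG hg hg1 hV.le]
  refine split_real hV (Rf_cont hG hg hg1 hg hg1) (Mf_cont hG hg hg1)
    (fun τ hτ => Rf_hasDerivAt hG hg hg1 hτ) (Rf_zero hG hg hg1 _ hV.le) fun t ht => ?_
  have hVt : 0 ≤ V - t := by linarith [ht.2]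
  have hGt := hG.step hg hg1 hVt
  have e1 : gstep g t (gstep g (V - t) G) = gstep g V G := by
    rw [gstep_add hG hg ht.1.le hVt]
    congr 1
    ring
  have h1 := gstep_diff hGt hg hg1 hg₁ hg₁1 ht.1.le 0
  rw [e1] at h1
  have e2 : (∫ τ in (0 : ℝ)..t, tlt g₁ τ (gstep g (t - τ) (gstep g (V - t) G))
      (fun y => iteratedDeriv 1 (gstep g (t - τ) (gstep g (V - t) G)) y ^ 2) 0) =
      ∫ τ in (0 : ℝ)..t, Rf g₁ g V G τ := by
    refine intervalIntegral.integral_congr fun τ hτ => ?_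
    rw [uIcc_of_le ht.1.le] at hτ
    have e3 : gstep g (t - τ) (gstep g (V - t) G) = gstep g (V - τ) G := by
      rw [gstep_add hG hg (by linarith [hτ.2]) hVt]
      congr 1
      ring
    rw [e3]
    rfl
  rw [e2] at h1
  have h2 := hmin t ht
  set I := ∫ τ in (0 : ℝ)..t, Rf g₁ g V G τ with hI
  have h3 : 0 < g - g₁ := by linarith
  have h4 : (g - g₁) * I ≤ (g - g₁) * (1 / b ^ 2 * t ^ 2 / 2) := by
    have h5 : (g - g₁) * (1 / b ^ 2 * t ^ 2 / 2) = 2 * ((g - g₁) * t ^ 2 / (4 * b ^ 2)) := by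
      field_simp
      ring
    rw [h5]
    linarith
  have h5 : I ≤ 1 / b ^ 2 * t ^ 2 / 2 := le_of_mul_le_mul_left h4 h3
  have hcR : ∀ g' : ℝ, 0 < g' → g' ≤ 1 → ContinuousOn (Rf g' g V G) (Icc 0 t) := fun g' h h' =>
    (Rf_cont hG hg hg1 h h').mono (Icc_subset_Icc_right ht.2)
  have h6 : ∫ τ in (0 : ℝ)..t, Rf g g V G τ ≤
      ∫ τ in (0 : ℝ)..t, (Rf g₁ g V G τ + K * (g - g₁) * τ) := by
    refine intervalIntegral.integral_mono_on ht.1.le
      ((hcR g hg hg1).intervalIntegrable_of_Icc ht.1.le)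
      (((hcR g₁ hg₁ hg₁1).add (by fun_prop)).intervalIntegrable_of_Icc ht.1.le) fun τ hτ => ?_
    exact htilt C g g₁ g V G hG hg hg1 hg₁ hgg.le hg1 hVS τ ⟨hτ.1, hτ.2.trans ht.2⟩
  have h7 : ∫ τ in (0 : ℝ)..t, (Rf g₁ g V G τ + K * (g - g₁) * τ) =
      I + K * (g - g₁) * (t ^ 2 / 2) := by
    rw [intervalIntegral.integral_add ((hcR g₁ hg₁ hg₁1).intervalIntegrable_of_Icc ht.1.le)
      ((by fun_prop : Continuous fun τ : ℝ => K * (g - g₁) * τ).intervalIntegrable _ _),
      intervalIntegral.integral_const_mul, integral_id]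
    ring
  rw [h7] at h6
  calc _ ≤ I + K * (g - g₁) * (t ^ 2 / 2) := h6
    _ ≤ 1 / b ^ 2 * t ^ 2 / 2 + K * (g - g₁) * (t ^ 2 / 2) := by linarith
    _ = _ := by ring

/-- `M' ≥ -2 g M` -/
theorem split_M1f {C g s₁ τ : ℝ} {F : ℝ → ℝ} (h : Adm C F) (hg : 0 < g) (hg1 : g ≤ 1)
    (hτ : τ ∈ Icc 0 s₁) : -(2 * g) * Mf g s₁ F τ ≤ M1f g s₁ F τ := by
  obtain ⟨L, B, hsm⟩ := first_sm h hg hτ
  have b2 := first_f_bc h hg s₁ 1
  have b3 := first_f_bc h hg s₁ 2
  have hb := (b3.mul b3).add ((b2.mul (b2.mul b2)).smul (-(2 * g)))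
  have hb2 := (b2.mul b2).smul (-(2 * g))
  obtain ⟨K, hK⟩ := hb.2
  obtain ⟨K2, hK2⟩ := hb2.2
  rw [first_M1f_eq, first_Mf_eq]
  simp only
  rw [← tlt_const_mul]
  refine hsm.tlt_mono (hb2.slice τ) (hK2 τ) (hb.slice τ) (hK τ) (fun x => ?_) g τ 0
  obtain ⟨p1, p2⟩ := first_d1_sq h hg hg1 hτ x
  have p5 : first_f g s₁ F 2 τ x ≤ 1 := by nlinarith [sq_nonneg (first_f g s₁ F 1 τ x)]
  have p6 : 0 ≤ first_f g s₁ F 2 τ x * first_f g s₁ F 2 τ x * (1 - first_f g s₁ F 2 τ x) :=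
    mul_nonneg (mul_nonneg p1.le p1.le) (by linarith)
  have p7 := mul_nonneg hg.le p6
  have p8 := mul_self_nonneg (first_f g s₁ F 3 τ x)
  nlinarith

/-- lower bound of the overlap of a block by the response at its bottom -/
theorem split_Rf_low {C g s₁ : ℝ} {F : ℝ → ℝ} (h : Adm C F) (hg : 0 < g) (hg1 : g ≤ 1)
    (hs : 0 < s₁) :
    Real.exp (-(2 * g * s₁)) * iteratedDeriv 2 (gstep g s₁ F) 0 ^ 2 * s₁ ≤ Rf g g s₁ F s₁ := by
  rw [← Mf_zero h hg hg1 hs.le]
  have hM0 : 0 ≤ Mf g s₁ F 0 := by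
    rw [Mf_zero h hg hg1 hs.le]
    exact sq_nonneg _
  obtain ⟨ξ, hξ, he⟩ := exists_hasDerivAt_eq_slope (Rf g g s₁ F) (Mf g s₁ F) hs
    (Rf_cont h hg hg1 hg hg1) (fun x hx => Rf_hasDerivAt h hg hg1 hx)
  rw [Rf_zero h hg hg1 _ hs.le, sub_zero, sub_zero, eq_div_iff hs.ne'] at he
  rw [← he]
  refine mul_le_mul_of_nonneg_right ?_ hs.le
  have hmono : MonotoneOn (fun τ => Real.exp (2 * g * τ) * Mf g s₁ F τ) (Icc 0 s₁) := by
    refine monotoneOn_of_deriv_nonneg (convex_Icc 0 s₁)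
      ((by fun_prop : Continuous fun τ : ℝ => Real.exp (2 * g * τ)).continuousOn.mul
        (Mf_cont h hg hg1)) ?_ ?_
    · rw [interior_Icc]
      intro τ hτ
      have h1 : DifferentiableAt ℝ (fun τ : ℝ => Real.exp (2 * g * τ)) τ := by fun_prop
      exact (h1.mul (Mf_hasDerivAt h hg hg1 hτ).differentiableAt).differentiableWithinAt
    · rw [interior_Icc]
      intro τ hτ
      have h1 : HasDerivAt (fun τ : ℝ => Real.exp (2 * g * τ))
          (Real.exp (2 * g * τ) * (2 * g)) τ := by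
        have := (((hasDerivAt_id τ).const_mul (2 * g))).exp
        simpa using this
      have h5 : deriv (fun τ => Real.exp (2 * g * τ) * Mf g s₁ F τ) τ = _ :=
        (h1.mul (Mf_hasDerivAt h hg hg1 hτ)).deriv
      rw [h5]
      have h2 := split_M1f h hg hg1 ⟨hτ.1.le, hτ.2.le⟩
      have h3 := Real.exp_pos (2 * g * τ)
      have h4 : 0 ≤ Real.exp (2 * g * τ) * (M1f g s₁ F τ - -(2 * g) * Mf g s₁ F τ) :=
        mul_nonneg h3.le (by linarith)
      linarith
  have h1 := hmono (left_mem_Icc.2 hs.le) ⟨hξ.1.le, hξ.2.le⟩ hξ.1.le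
  simp only [mul_zero, Real.exp_zero, one_mul] at h1
  have h2 : Real.exp (-(2 * g * s₁)) ≤ Real.exp (-(2 * g * ξ)) := by
    apply Real.exp_le_exp.2
    have := mul_le_mul_of_nonneg_left hξ.2.le (show 0 ≤ 2 * g by positivity)
    linarith
  calc Real.exp (-(2 * g * s₁)) * Mf g s₁ F 0
      ≤ Real.exp (-(2 * g * ξ)) * (Real.exp (2 * g * ξ) * Mf g s₁ F ξ) :=
        mul_le_mul h2 h1 hM0 (Real.exp_pos _).le
    _ = Mf g s₁ F ξ := by
        rw [← mul_assoc, ← Real.exp_add]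
        simp

/-- the second derivative of the bottom function does not change under the extension -/
theorem split_ext {b : ℝ} {k : ℕ} {m r : ℕ → ℝ} (hm : Exponents k m) (hr : BPath b k r) (x : ℝ) :
    iteratedDeriv 2 (cascade m (minbExt b k r) (k + 1) lc) x =
      iteratedDeriv 2 (cascade m r k lc) x := by
  have hP := minb_ext_P hr
  have h1 := minb_top (j := 0) hm hP.2.1 (by omega)
  simp only [Nat.zero_add, Nat.sub_zero] at h1
  have e1 : (fun l => m l) = m := rfl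
  have e2 : (fun l => minbExt b k r l) = minbExt b k r := rfl
  rw [e1, e2] at h1
  have h2 : cascade m (minbExt b k r) k lc = cascade m r k lc :=
    minb_congr (fun _ _ _ => rfl) (fun l hl => by simp [minbExt, hl]) lc
  rw [h1, h2]
  have h3 : deriv (fun x => cascade m r k lc x + (minbExt b k r (k + 1) - minbExt b k r k) / 2) =
      deriv (cascade m r k lc) := funext fun y => deriv_add_const _
  have h4 : ∀ f : ℝ → ℝ, iteratedDeriv 2 f = iteratedDeriv 1 (deriv f) := fun f =>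
    iteratedDeriv_succ'
  rw [h4, h4, h3]

/-- (B) the first block starts at the level one -/
theorem split_B {b : ℝ} (hb : 0 < b) {k : ℕ} {m : ℕ → ℝ} (hm : Exponents k m) {r : ℕ → ℝ}
    (hr : BPath b k r) (hmin : ∀ r', BPath b k r' → SKr b k m r ≤ SKr b k m r')
    (hk1 : 1 ≤ k) (hr1 : 0 < r 1) :
    ∃ F : ℝ → ℝ, Adm (2 * Real.exp (2 * b ^ 2)) F ∧
      (∀ x, iteratedDeriv 2 (cascade m r k lc) x = iteratedDeriv 2 (gstep (m 1) (r 1) F) x) ∧
      Rf (m 1) (m 1) (r 1) F (r 1) ≤ r 1 / b ^ 2 := by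
  classical
  obtain ⟨emono, e0, e1⟩ := minb_exp hm
  set R := minbExt b k r with hRdef
  have hP : MinbP b k R := minb_ext_P hr
  have hRmin : ∀ R', MinbP b k R' → minbJ b k m R ≤ minbJ b k m R' :=
    fun R' h => minb_min_ext hm hr hmin h
  have hmonoR : ∀ i j, i ≤ j → j ≤ k + 1 → R i ≤ R j := fun i j h1 h2 => minb_mono hP.2.1 h1 h2
  have hR1 : R 1 = r 1 := by simp [hRdef, minbExt, hk1]
  rw [← hR1] at hr1 ⊢
  have hgoodR : ∀ i n : ℕ, i + n ≤ k + 1 →
      Good (if n = 0 then 1 else m (i + 1)) (2 * Real.exp (2 * b ^ 2))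
        (cascade (fun l => m (i + l)) (fun l => R (i + l)) n lc) := by
    intro i n hin
    have h1 := good_cascade (c := n) (m := fun l => m (i + l)) (r := fun l => R (i + l)) good_lc
      le_rfl (fun l h1 h2 => e0 _ (by omega) (by omega))
      (fun l h1 h2 => emono _ _ (by omega) (by omega))
      (fun l h1 h2 => e1 _ (by omega)) (fun l hl => hP.2.1 _ (by omega))
    refine h1.mono_C ?_
    have h2 := hmonoR (i + n) (k + 1) hin le_rfl
    have h3 := hmonoR 0 (i + 0) (by omega) (by omega)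
    rw [hP.2.2] at h2
    rw [hP.1] at h3
    gcongr
    linarith
  have hadmR : ∀ i n : ℕ, i + n ≤ k + 1 → Adm (2 * Real.exp (2 * b ^ 2))
      (cascade (fun l => m (i + l)) (fun l => R (i + l)) n lc) := fun i n h => (hgoodR i n h).adm
  have hm1 : 0 < m 1 := e0 1 le_rfl (by omega)
  have h0 : ∀ l < 1, R l = 0 := fun l hl => by
    have : l = 0 := by omega
    rw [this]; exact hP.1
  set F := cascade (fun l => m (1 + l)) (fun l => R (1 + l)) (k + 1 - 1) lc with hF
  have hcas : cascade m R (k + 1) lc = gstep (m 1) (R 1) F := by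
    have hk : k + 1 = 1 + (k + 1 - 1) := by omega
    conv_lhs => rw [hk, minb_split]
    rw [minb_block le_rfl (fun l h1 h2 => (e0 _ (by omega) (by omega)).ne')
      (fun l hl => by rw [h0 l hl, h0 0 (by omega)]), h0 0 (by omega), sub_zero]
  refine ⟨F, hadmR 1 (k + 1 - 1) (by omega), fun x => ?_, ?_⟩
  · rw [← split_ext hm hr x, ← hcas]
  by_cases hjb : R 1 = b ^ 2
  · refine (Rf_le_one (hadmR 1 (k + 1 - 1) (by omega)) hm1 (e1 1 (by omega)) hm1
      ⟨hr1.le, le_rfl⟩).trans (le_of_eq ?_)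
    rw [hjb, div_self (by positivity)]
  have hlt : R 1 < R (k + 1) := by
    have h1 := hmonoR 1 (k + 1) (by omega) le_rfl
    rcases h1.lt_or_eq with h2 | h2
    · exact h2
    · exact absurd (by rw [h2, hP.2.2]) hjb
  have hex2 : ∃ l, R 1 < R l := ⟨k + 1, hlt⟩
  set p := Nat.find hex2 with hp
  have hRp : R 1 < R p := Nat.find_spec hex2
  have hpk : p ≤ k + 1 := Nat.find_min' hex2 hlt
  have hjp : 1 < p := by
    by_contra h
    have := hmonoR p 1 (by omega) (by omega)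
    linarith
  have h1 : ∀ l, 1 ≤ l → l < p → R l = R 1 := by
    intro l h1 h2
    have h3 := Nat.find_min hex2 h2
    have h4 := hmonoR 1 l h1 (by omega)
    linarith [not_lt.1 h3]
  have hmp : m 1 < m p := by
    have := hm.2.2 1 hk1
    exact this.trans_le (emono (1 + 1) p (by omega) hpk)
  have hstep : F = gstep (m p) (R p - R 1)
      (cascade (fun l => m (p + l)) (fun l => R (p + l)) (k + 1 - p) lc) := by
    have hk : k + 1 - 1 = (p - 1) + (k + 1 - p) := by omega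
    rw [hF, hk, minb_split]
    have hp' : ∀ l, 1 + (p - 1 + l) = p + l := fun l => by omega
    simp only [hp']
    rw [minb_block (p := p - 1) (by omega) (fun l h4 h5 => (e0 _ (by omega) (by omega)).ne')
      (fun l hl => by
        simp only [Nat.add_zero]
        exact h1 (1 + l) (by omega) (by omega))]
    have hp'' : 1 + (p - 1) = p := by omega
    simp only [Nat.add_zero, hp'']
  rw [hstep]
  refine vari_down hb (hadmR p (k + 1 - p) (by omega)) hm1 hmp (e1 p hpk) hr1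
    (sub_pos.2 hRp) fun τ hτ => ?_
  have h2 := minb_comp (p := p) (c := R 1 + τ) hm hP hRmin le_rfl hjp hpk h0 h1
    (by linarith [hτ.1]) (by linarith [hτ.2])
  have h3 : R p - (R 1 + τ) = R p - R 1 - τ := by ring
  rw [h3] at h2
  have h5 : (m p - m 1) * ((R 1 + τ) ^ 2 - R 1 ^ 2) / (4 * b ^ 2) =
    (m 1 - m p) * R 1 ^ 2 / (4 * b ^ 2) - (m 1 - m p) * (R 1 + τ) ^ 2 / (4 * b ^ 2) := by ring
  rw [h5] at h2
  linarith

/-- **Upper bound of the response at zero**, general exponents. -/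
theorem split_gen {b : ℝ} (hb : 1 < b) : ∃ C : ℝ, 1 ≤ C ∧ ∀ (n : ℕ) (m r : ℕ → ℝ) (h : ℝ),
    Exponents n m → (∀ l ≤ n, m (l + 1) - m l ≤ h) → IsMin b n m r →
    iteratedDeriv 2 (cascade m r n lc) 0 ^ 2 ≤ 1 / b ^ 2 + C * h := by
  have hb0 : 0 < b := by linarith
  obtain ⟨K, hK, htilt⟩ := Rf_tilt2 (b ^ 2)
  refine ⟨K + 2 * b ^ 2 + 1, by nlinarith [sq_nonneg b], fun n m r h hm hinc hmin => ?_⟩
  obtain ⟨hr, hmin⟩ := hmin
  obtain ⟨emono, e0, e1⟩ := minb_exp hm
  have hb2 : 0 < b ^ 2 := by positivity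
  have hh : 0 < h := lt_of_lt_of_le (sub_pos.2 (hm.2.2 0 (Nat.zero_le n))) (hinc 0 (Nat.zero_le n))
  set R := minbExt b n r with hRdef
  have hP : MinbP b n R := minb_ext_P hr
  have hRmin : ∀ R', MinbP b n R' → minbJ b n m R ≤ minbJ b n m R' :=
    fun R' h => minb_min_ext hm hr hmin h
  have hmonoR : ∀ i j, i ≤ j → j ≤ n + 1 → R i ≤ R j := fun i j h1 h2 => minb_mono hP.2.1 h1 h2
  have hex : ∃ l, 0 < R l := ⟨n + 1, by rw [hP.2.2]; exact hb2⟩
  set p := Nat.find hex with hp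
  have hRp : 0 < R p := Nat.find_spec hex
  have hpn : p ≤ n + 1 := Nat.find_min' hex (by rw [hP.2.2]; exact hb2)
  have h0 : ∀ l < p, R l = 0 := by
    intro l hl
    have h1 := Nat.find_min hex hl
    have h2 := hmonoR 0 l (by omega) (by omega)
    rw [hP.1] at h2
    linarith [not_lt.1 h1]
  have hp1 : 1 ≤ p := by
    by_contra h
    have : p = 0 := by omega
    rw [this, hP.1] at hRp
    exact lt_irrefl _ hRp
  rcases hp1.eq_or_lt with hp1 | hp2
  · -- the first block starts at the level one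
    rcases Nat.eq_zero_or_pos n with hn | hn
    · subst hn
      have h1 : iteratedDeriv 2 (cascade m r 0 lc) 0 = 1 := gapn_lc_deriv2
      rw [h1]
      have h2 : 1 ≤ h := by
        have := hinc 0 le_rfl
        rw [hm.1, show m (0 + 1) = 1 from hm.2.1] at this
        linarith
      have h3 : 0 < 1 / b ^ 2 := by positivity
      nlinarith
    · have hr1 : 0 < r 1 := by
        have : R 1 = r 1 := if_pos hn
        rw [← this, hp1]
        exact hRp
      obtain ⟨F, hF, hcas, hRf⟩ := split_B hb0 hm hr hmin hn hr1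
      have hg : 0 < m 1 := e0 1 le_rfl (by omega)
      have hg1 : m 1 ≤ 1 := e1 1 (by omega)
      have h1 := split_Rf_low hF hg hg1 hr1
      have hgh : m 1 ≤ h := by
        have := hinc 0 (Nat.zero_le n)
        rw [hm.1] at this
        linarith
      have hrb : r 1 ≤ b ^ 2 := (gapn_path_le hr.2.1 hn le_rfl).trans hr.2.2
      rw [hcas 0]
      set A := iteratedDeriv 2 (gstep (m 1) (r 1) F) 0 with hA
      have hA1 : A ^ 2 ≤ 1 := by
        have h2 := vari_d2_01 (hF.step hg hg1 hr1.le) 0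
        rw [← hA] at h2
        nlinarith [h2.1, h2.2]
      have h2 : Real.exp (-(2 * m 1 * r 1)) * A ^ 2 ≤ 1 / b ^ 2 := by
        have h3 : (Real.exp (-(2 * m 1 * r 1)) * A ^ 2) * r 1 ≤ (1 / b ^ 2) * r 1 := by
          refine (h1.trans hRf).trans (le_of_eq ?_)
          ring
        exact le_of_mul_le_mul_right h3 hr1
      have h3 := Real.add_one_le_exp (-(2 * m 1 * r 1))
      have h4 : (-(2 * m 1 * r 1) + 1) * A ^ 2 ≤ Real.exp (-(2 * m 1 * r 1)) * A ^ 2 :=
        mul_le_mul_of_nonneg_right h3 (sq_nonneg _)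
      have h5 : m 1 * r 1 ≤ h * b ^ 2 := mul_le_mul hgh hrb hr1.le hh.le
      have h6 : (2 * (m 1 * r 1)) * A ^ 2 ≤ (2 * (h * b ^ 2)) * 1 :=
        mul_le_mul (by linarith) hA1 (sq_nonneg _) (by positivity)
      have h7 : 0 ≤ K * h := mul_nonneg hK hh.le
      nlinarith
  · -- raising the last level at zero
    obtain ⟨j, hj⟩ : ∃ j, p = j + 1 := ⟨p - 1, by omega⟩
    have hj1 : 1 ≤ j := by omega
    have hjn : j ≤ n := by omega
    have hg₁ : 0 < m j := e0 j hj1 (by omega)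
    have hgg : m j < m p := by rw [hj]; exact hm.2.2 j hjn
    have hG : ∃ C, Adm C (cascade (fun l => m (p + l)) (fun l => R (p + l)) (n + 1 - p) lc) := by
      have h1 := good_cascade (c := n + 1 - p) (m := fun l => m (p + l))
        (r := fun l => R (p + l)) good_lc
        le_rfl (fun l h1 h2 => e0 _ (by omega) (by omega))
        (fun l h1 h2 => emono _ _ (by omega) (by omega))
        (fun l h1 h2 => e1 _ (by omega)) (fun l hl => hP.2.1 _ (by omega))
      exact ⟨_, h1.adm⟩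
    obtain ⟨C, hG⟩ := hG
    have hRj : R j = 0 := h0 j (by omega)
    have hcas := minb_two (p := p) hm hj1 (by omega) hpn (fun l hl => h0 l (by omega))
      (fun l h1 h2 => by rw [h0 l h2, hRj])
    rw [hRj, gstep_zero hg₁.ne', sub_zero] at hcas
    rw [← split_ext hm hr 0, ← hRdef, hcas]
    have h1 := split_A hb0 htilt hG hg₁ hgg (e1 p hpn) hRp
      (by rw [← hP.2.2]; exact hmonoR p (n + 1) hpn le_rfl) (fun t ht => by
        have h2 := minb_comp (p := p) (c := t) hm hP hRmin hj1 (by omega) hpn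
          (fun l hl => h0 l (by omega)) (fun l h1 h2 => by rw [h0 l h2, hRj]) ht.1.le ht.2
        rw [hRj, gstep_zero hg₁.ne', sub_zero] at h2
        refine h2.trans (le_of_eq ?_)
        ring)
    refine h1.trans ?_
    have h2 : m p - m j ≤ h := by rw [hj]; exact hinc j hjn
    have h3 := mul_le_mul_of_nonneg_left h2 hK
    have h4 : 0 ≤ (2 * b ^ 2 + 1) * h := by positivity
    linarith

theorem split_zero {b : ℝ} (hb : 1 < b) : ∃ C : ℝ, 1 ≤ C ∧ ∀ (n : ℕ) (r : ℕ → ℝ),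
    IsMin b n (gm n) r →
    iteratedDeriv 2 (cascade (gm n) r n lc) 0 ^ 2 ≤ 1 / b ^ 2 + C / (n + 1) := by
  obtain ⟨C, hC, h⟩ := split_gen hb
  refine ⟨C, hC, fun n r hr => ?_⟩
  have h1 := h n (gm n) r (1 / (n + 1)) (gm_exponents n) (fun l _ => (gm_sub n l).le) hr
  rwa [mul_one_div] at h1

end Vale.Agent.P146.Pw2
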