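import Vale.Agent.P146.Pw2.T1Nest2
import Vale.Agent.P146.Pw2.T1Lip
import Vale.Agent.P146.Pw2.T1Split

/-!
# P146, polynomial lower bound, Parisi side: the block between the levels `L` and `L + 1` (LONG)
-/

open MeasureTheory ProbabilityTheory Filter Topology Set

namespace Vale.Agent.P146.Pw2

open Vale.Agent.P157.Par
open Vale.Agent.P146.Gap

lemma long_gm_pos (n l : ℕ) : 0 < gm n (l + 1) := by unfold gm; positivity

lemma long_gm_le {n l : ℕ} (hl : l ≤ n + 1) : gm n l ≤ 1 := by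
  unfold gm
  rw [div_le_one (by positivity)]
  exact_mod_cast hl

lemma long_gm_lt (n l : ℕ) : gm n l < gm n (l + 1) := by
  have h1 := gm_sub n l
  have h2 : (0 : ℝ) < 1 / (n + 1) := by positivity
  linarith

lemma long_r_nonneg {b : ℝ} {n : ℕ} {r : ℕ → ℝ} (h : BPath b n r) {l : ℕ} (hl : l ≤ n) :
    0 ≤ r l := by
  have := gapn_path_le h.2.1 (Nat.zero_le l) hl
  rwa [h.1] at this

lemma long_r_le {b : ℝ} {n : ℕ} {r : ℕ → ℝ} (h : BPath b n r) {l : ℕ} (hl : l ≤ n) :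
    r l ≤ b ^ 2 := (gapn_path_le h.2.1 hl le_rfl).trans h.2.2

lemma long_sqrt {b x : ℝ} (hb : 0 ≤ b) (hx : 0 ≤ x) (h : x ≤ b ^ 2) : x ≤ b * √x := by
  have h1 : √x ≤ b := by
    rw [Real.sqrt_le_left hb]
    exact h
  calc x = √x * √x := (Real.mul_self_sqrt hx).symm
    _ ≤ b * √x := mul_le_mul_of_nonneg_right h1 (Real.sqrt_nonneg x)

lemma long_chn_smul (m r : ℕ → ℝ) (l : ℕ) (F ψ : ℝ → ℝ) (c : ℝ) :
    chn m r l F (fun x => c * ψ x) = c * chn m r l F ψ := by
  induction l generalizing F ψ with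
  | zero => rw [chn_zero_def, chn_zero_def, integral_const_mul]
  | succ l ih =>
    rw [chn_succ_def, chn_succ_def]
    have h1 : tlt (m (l + 1)) (r (l + 1) - r l) F (fun x => c * ψ x) =
        fun x => c * tlt (m (l + 1)) (r (l + 1) - r l) F ψ x :=
      funext fun x => tlt_const_mul _ _ _ _ _ x
    rw [h1, ih]

lemma long_cb_abs {g : ℝ → ℝ} (hg : Sp7Cb g) : Sp7Cb (fun x => |g x|) := by
  obtain ⟨hc, K, hK⟩ := hg
  exact ⟨hc.abs, K, fun x => by rw [abs_abs]; exact hK x⟩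

lemma long_cb_smul {g : ℝ → ℝ} (hg : Sp7Cb g) (c : ℝ) : Sp7Cb (fun x => c * g x) := by
  obtain ⟨hc, K, hK⟩ := hg
  exact ⟨continuous_const.mul hc, |c| * K, fun x => by
    rw [abs_mul]; exact mul_le_mul_of_nonneg_left (hK x) (abs_nonneg c)⟩

/-! ### (c) -/

lemma long_chain {b K : ℝ} {n : ℕ} {r : ℕ → ℝ} (hr : BPath b n r)
    (hB : ∀ l < n, BK K (gm n (l + 1)) (r (l + 1) - r l) (Fl n (gm n) r (l + 1))) :
    ∀ l ≤ n, iteratedDeriv 2 (Fl n (gm n) r l) 0 ≤
      Real.exp (K * r l / 2) * iteratedDeriv 2 (Fl n (gm n) r 0) 0 := by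
  intro l
  induction l with
  | zero =>
    intro _
    rw [hr.1]
    simp
  | succ l ih =>
    intro hl
    have hl' : l < n := by omega
    have h1 := bk_low0 (hB l hl') (long_gm_pos n l) (long_gm_le (by omega))
      (sub_nonneg.2 (hr.2.1.2 l hl'))
    rw [← fl_succ hl'] at h1
    refine h1.trans ?_
    have h2 := mul_le_mul_of_nonneg_left (ih (by omega))
      (Real.exp_pos (K * (r (l + 1) - r l) / 2)).le
    refine h2.trans (le_of_eq ?_)
    rw [← mul_assoc, ← Real.exp_add]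
    congr 2
    ring

theorem long_c {b : ℝ} (hb : 1 < b) : ∃ C : ℝ, 1 ≤ C ∧ ∀ (n : ℕ) (r : ℕ → ℝ) (L : ℕ),
    IsMin b n (gm n) r → L < n →
    iteratedDeriv 2 (Fl n (gm n) r L) 0 ^ 2 ≤ 1 / b ^ 2 + C * (r L + 1 / (n + 1)) := by
  obtain ⟨K, hK1, hK⟩ := fl_bk b
  obtain ⟨C0, hC0, hS⟩ := split_zero hb
  refine ⟨C0 + K * Real.exp (K * b ^ 2), ?_, ?_⟩
  · have h1 : 0 < K * Real.exp (K * b ^ 2) := mul_pos (by linarith) (Real.exp_pos _)
    linarith
  intro n r L h hL
  have hm := gm_exponents n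
  obtain ⟨hA, hB⟩ := hK n (gm n) r hm h.1
  have h1 := long_chain h.1 hB L hL.le
  have h2 := hS n r h
  rw [← fl_zero] at h2
  have hp := (hA L hL.le).adm.pos 0
  have hp0 := vari_d2_01 (hA 0 (by omega)).adm 0
  have hr0 := long_r_nonneg h.1 hL.le
  have hrb := long_r_le h.1 hL.le
  set a := iteratedDeriv 2 (Fl n (gm n) r L) 0 with ha
  set a0 := iteratedDeriv 2 (Fl n (gm n) r 0) 0 with ha0
  have h3 : a ^ 2 ≤ Real.exp (K * r L) * a0 ^ 2 := by
    have h4 := pow_le_pow_left₀ hp.le h1 2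
    refine h4.trans (le_of_eq ?_)
    rw [mul_pow, ← Real.exp_nat_mul]
    congr 2
    push_cast
    ring
  have hx : 0 ≤ K * r L := by positivity
  have h5 : Real.exp (K * r L) ≤ 1 + K * Real.exp (K * b ^ 2) * r L := by
    have h6 : Real.exp (K * r L) ≤ 1 + K * r L * Real.exp (K * r L) := by
      have h7 := Real.add_one_le_exp (-(K * r L))
      have h8 := Real.exp_pos (K * r L)
      have h9 : Real.exp (-(K * r L)) * Real.exp (K * r L) = 1 := by
        rw [← Real.exp_add]; simp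
      have h10 := mul_le_mul_of_nonneg_right h7 h8.le
      rw [h9] at h10
      linarith
    have h11 : Real.exp (K * r L) ≤ Real.exp (K * b ^ 2) :=
      Real.exp_le_exp.2 (mul_le_mul_of_nonneg_left hrb (by linarith))
    have h12 := mul_le_mul_of_nonneg_left h11 hx
    have e1 : K * Real.exp (K * b ^ 2) * r L = K * r L * Real.exp (K * b ^ 2) := by ring
    rw [e1]
    linarith
  have h13 : a0 ^ 2 ≤ 1 := pow_le_one₀ hp0.1.le hp0.2
  have h14 : 0 ≤ K * Real.exp (K * b ^ 2) * r L := by positivity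
  have h15 : Real.exp (K * r L) * a0 ^ 2 ≤ (1 + K * Real.exp (K * b ^ 2) * r L) * a0 ^ 2 :=
    mul_le_mul_of_nonneg_right h5 (sq_nonneg a0)
  have h16 : K * Real.exp (K * b ^ 2) * r L * a0 ^ 2 ≤ K * Real.exp (K * b ^ 2) * r L :=
    mul_le_of_le_one_right h14 h13
  have h17 : 0 ≤ C0 * r L := by positivity
  have h18 : 0 ≤ K * Real.exp (K * b ^ 2) * (1 / ((n : ℝ) + 1)) := by positivity
  have e2 : (C0 + K * Real.exp (K * b ^ 2)) * (r L + 1 / ((n : ℝ) + 1)) =
      C0 * r L + C0 / (n + 1) + K * Real.exp (K * b ^ 2) * r L +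
        K * Real.exp (K * b ^ 2) * (1 / ((n : ℝ) + 1)) := by ring
  rw [e2]
  linarith

/-! ### (d) -/

/-- the other data of the block -/
theorem long_d {b : ℝ} (_hb : 1 < b) : ∃ C : ℝ, 1 ≤ C ∧ ∀ (n : ℕ) (r : ℕ → ℝ) (L : ℕ),
    IsMin b n (gm n) r → L < n → r L < r (L + 1) →
    (∃ C', Adm C' (Fl n (gm n) r (L + 1))) ∧
    Mf (gm n (L + 1)) (r (L + 1) - r L) (Fl n (gm n) r (L + 1)) 0 =
      iteratedDeriv 2 (Fl n (gm n) r L) 0 ^ 2 ∧
    M1f (gm n (L + 1)) (r (L + 1) - r L) (Fl n (gm n) r (L + 1)) 0 ≤ -(gm n (L + 1) / C) ∧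
    ∀ τ ∈ Ioo 0 (r (L + 1) - r L),
      0 ≤ M2f (gm n (L + 1)) (r (L + 1) - r L) (Fl n (gm n) r (L + 1)) τ ∧
      M2f (gm n (L + 1)) (r (L + 1) - r L) (Fl n (gm n) r (L + 1)) τ ≤ C := by
  obtain ⟨K, hK1, hK⟩ := fl_bk b
  have hK0 : 0 < K := by linarith
  refine ⟨K ^ 3 + K ^ 2 + 6, ?_, ?_⟩
  · have h1 : 0 < K ^ 3 + K ^ 2 := by positivity
    linarith
  intro n r L h hL hlt
  have hm := gm_exponents n
  obtain ⟨hA, hB⟩ := hK n (gm n) r hm h.1
  have hV : 0 < r (L + 1) - r L := sub_pos.2 hlt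
  have hg := long_gm_pos n L
  have hg1 : gm n (L + 1) ≤ 1 := long_gm_le (by omega)
  have hF := (hA (L + 1) (by omega)).adm
  have hFL := hA L hL.le
  have hsucc := fl_succ (m := gm n) (r := r) hL
  set F := Fl n (gm n) r (L + 1) with hFd
  set g := gm n (L + 1) with hgd
  set V := r (L + 1) - r L with hVd
  refine ⟨⟨K, hF⟩, ?_, ?_, ?_⟩
  · rw [Mf_zero hF hg hg1 hV.le, hsucc]
  · unfold M1f
    rw [sp3_tlt_triv le_rfl, sub_zero, ← hsucc, GoodX.good_odd hFL.adm.even (by decide : Odd 3)]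
    have h1 : 1 / K ≤ iteratedDeriv 2 (Fl n (gm n) r L) 0 := by
      rw [div_le_iff₀ hK0, mul_comm]
      exact hFL.low0
    have h2 : (1 / K) ^ 3 ≤ iteratedDeriv 2 (Fl n (gm n) r L) 0 ^ 3 :=
      pow_le_pow_left₀ (by positivity) h1 3
    have h3 : 1 / (K ^ 3 + K ^ 2 + 6) ≤ (1 / K) ^ 3 := by
      rw [one_div_pow]
      apply one_div_le_one_div_of_le (by positivity)
      nlinarith [sq_nonneg K]
    have h4 : 1 / (K ^ 3 + K ^ 2 + 6) ≤ 2 * iteratedDeriv 2 (Fl n (gm n) r L) 0 ^ 3 := by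
      have : 0 < (1 / K) ^ 3 := by positivity
      linarith
    have h5 := mul_le_mul_of_nonneg_left h4 hg.le
    have e1 : g * (1 / (K ^ 3 + K ^ 2 + 6)) = g / (K ^ 3 + K ^ 2 + 6) := by ring
    rw [e1] at h5
    linarith
  · intro τ hτ
    constructor
    · obtain ⟨C', hG⟩ := fl_good hm h.1.2.1 (l := L + 1) (by omega)
      exact gapn_M2f_nonneg hG hg (long_gm_lt n (L + 1)).le (long_gm_le (by omega)) hτ
    · have hG : AK K (gstep g (V - τ) F) := hB L hL (V - τ) ⟨by linarith [hτ.2], by linarith [hτ.1]⟩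
      have hc : ∀ j : ℕ, Continuous (iteratedDeriv j (gstep g (V - τ) F)) := fun j =>
        (hG.adm.smb.smooth.continuous_iteratedDeriv j (by exact_mod_cast le_top))
      have h2 := vari_d2_01 hG.adm
      have h1 := vari_abs1 hG.adm
      have h3 : ∀ y, |iteratedDeriv 3 (gstep g (V - τ) F) y| ≤ K := fun y =>
        (hG.k3 y).trans (mul_le_of_le_one_right hK0.le (h1 y))
      have h4 : ∀ y, |iteratedDeriv 4 (gstep g (V - τ) F) y| ≤ K := fun y =>
        (hG.k4 y).trans (mul_le_of_le_one_right hK0.le (h2 y).2)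
      have hs3 : ∀ y, iteratedDeriv 3 (gstep g (V - τ) F) y ^ 2 ≤ K ^ 2 := fun y => by
        rw [← sq_abs]; exact pow_le_pow_left₀ (abs_nonneg _) (h3 y) 2
      have hs4 : ∀ y, iteratedDeriv 4 (gstep g (V - τ) F) y ^ 2 ≤ K ^ 2 := fun y => by
        rw [← sq_abs]; exact pow_le_pow_left₀ (abs_nonneg _) (h4 y) 2
      have ha : ∀ y, 0 ≤ 12 * g * iteratedDeriv 2 (gstep g (V - τ) F) y *
          iteratedDeriv 3 (gstep g (V - τ) F) y ^ 2 ∧ 12 * g * iteratedDeriv 2 (gstep g (V - τ) F) y *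
          iteratedDeriv 3 (gstep g (V - τ) F) y ^ 2 ≤ 12 * K ^ 2 := fun y => by
        have p1 := (h2 y).1
        refine ⟨by positivity, ?_⟩
        have p2 : g * iteratedDeriv 2 (gstep g (V - τ) F) y ≤ 1 :=
          mul_le_one₀ hg1 p1.le (h2 y).2
        have p3 : g * iteratedDeriv 2 (gstep g (V - τ) F) y *
            iteratedDeriv 3 (gstep g (V - τ) F) y ^ 2 ≤ 1 * K ^ 2 :=
          mul_le_mul p2 (hs3 y) (sq_nonneg _) zero_le_one
        linarith
      have hb' : ∀ y, 0 ≤ 6 * g ^ 2 * iteratedDeriv 2 (gstep g (V - τ) F) y ^ 4 ∧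
          6 * g ^ 2 * iteratedDeriv 2 (gstep g (V - τ) F) y ^ 4 ≤ 6 := fun y => by
        have p1 := (h2 y).1
        refine ⟨by positivity, ?_⟩
        have p2 : g ^ 2 * iteratedDeriv 2 (gstep g (V - τ) F) y ^ 4 ≤ 1 :=
          mul_le_one₀ (pow_le_one₀ hg.le hg1) (by positivity) (pow_le_one₀ p1.le (h2 y).2)
        linarith
      unfold M2f
      have h5 := (ex_ec hG.adm).sm.tlt_mono (g := fun y =>
          iteratedDeriv 4 (gstep g (V - τ) F) y ^ 2
          - 12 * g * iteratedDeriv 2 (gstep g (V - τ) F) y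
            * iteratedDeriv 3 (gstep g (V - τ) F) y ^ 2
          + 6 * g ^ 2 * iteratedDeriv 2 (gstep g (V - τ) F) y ^ 4) (g' := fun _ => K ^ 2 + 6)
        ((((hc 4).pow 2).sub ((continuous_const.mul (hc 2)).mul ((hc 3).pow 2))).add
          (continuous_const.mul ((hc 2).pow 4)))
        (K := K ^ 2 + 12 * K ^ 2 + 6) (fun y => by
          rw [abs_le]
          have q1 := ha y
          have q2 := hb' y
          have q3 := hs4 y
          have q4 := sq_nonneg (iteratedDeriv 4 (gstep g (V - τ) F) y)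
          constructor <;> nlinarith [sq_nonneg K])
        continuous_const (K' := |K ^ 2 + 6|) (fun _ => le_rfl) (fun y => by
          have q1 := ha y
          have q2 := hb' y
          have q3 := hs4 y
          linarith) g τ 0
      rw [(ex_ec hG.adm).sm.tlt_const] at h5
      refine h5.trans ?_
      have : 0 < K ^ 3 := by positivity
      linarith

/-! ### (b) -/

theorem long_b {b : ℝ} (hb : 1 < b) : ∃ C : ℝ, 1 ≤ C ∧ ∀ (n : ℕ) (r : ℕ → ℝ) (L : ℕ),
    IsMin b n (gm n) r → L < n → r L < r (L + 1) →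
    Rf (gm n (L + 1)) (gm n (L + 1)) (r (L + 1) - r L) (Fl n (gm n) r (L + 1))
      (r (L + 1) - r L) ≤ (r (L + 1) - r L) / b ^ 2 + C * √(r L) := by
  have hb0 : 0 < b := by linarith
  obtain ⟨K, hK1, hK⟩ := fl_bk b
  refine ⟨4 * K + b, by linarith, ?_⟩
  intro n r L h hL hlt
  have hm := gm_exponents n
  obtain ⟨hA, hB⟩ := hK n (gm n) r hm h.1
  have hV : 0 < r (L + 1) - r L := sub_pos.2 hlt
  have hg := long_gm_pos n L
  have hg1 : gm n (L + 1) ≤ 1 := long_gm_le (by omega)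
  have hF := (hA (L + 1) (by omega)).adm
  have hFL := hA L hL.le
  have hr0 := long_r_nonneg h.1 hL.le
  have hrb := long_r_le h.1 hL.le
  have hpath := h.1.2.1
  have hst := (stat hb0 hm h).1 (L + 1) (by omega) (hr0.trans_lt hlt)
  rw [spR_eq hm hpath (by omega : L + 1 ≤ n), ee_succ hL] at hst
  have e0 : Rf (gm n (L + 1)) (gm n (L + 1)) (r (L + 1) - r L) (Fl n (gm n) r (L + 1))
      (r (L + 1) - r L) = tlt (gm n (L + 1)) (r (L + 1) - r L) (Fl n (gm n) r (L + 1))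
        (fun x => iteratedDeriv 1 (Fl n (gm n) r (L + 1)) x ^ 2) 0 := by
    unfold Rf
    rw [sub_self, gstep_zero hg.ne']
  rw [e0]
  set ψ := tlt (gm n (L + 1)) (r (L + 1) - r L) (Fl n (gm n) r (L + 1))
    (fun x => iteratedDeriv 1 (Fl n (gm n) r (L + 1)) x ^ 2) with hψ
  have cψ : Sp7Cb ψ := sp7_cb_tlt (ex_ec hF) (sp7_cb_sq (sp7_cb_M (ex_ec hF))) _ _
  have cD : Sp7Cb (iteratedDeriv 1 (Fl n (gm n) r L)) := sp7_cb_M (ex_ec hFL.adm)
  have cD' : Sp7Cb (fun x => 4 * K * |iteratedDeriv 1 (Fl n (gm n) r L) x|) :=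
    long_cb_smul (long_cb_abs cD) _
  have h1 : ∀ x, ψ 0 ≤ ψ x + 4 * K * |iteratedDeriv 1 (Fl n (gm n) r L) x| := by
    intro x
    have h2 := blk_lip hF hg hg1 (r (L + 1) - r L) x
    rw [← hψ] at h2
    have h3 := (abs_le.1 h2).1
    have h4 := hFL.low x
    nlinarith
  have h5 := ee_mono hm hpath hL.le (sp7_cb_const (ψ 0)) (sp7_cb_add cψ cD') h1
  rw [ee_const hm hpath hL.le, ee_add hm hpath hL.le cψ cD', ee_smul, hst] at h5
  have h6 : Ee n (gm n) r L (fun x => |iteratedDeriv 1 (Fl n (gm n) r L) x|) ≤ √(r L) := by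
    refine chn_abs_le hFL.adm (fun i hi => ⟨long_gm_pos n i, long_gm_le (by omega)⟩)
      (fun i hi => hpath.2 i (by omega)) cD ?_
    have h7 := spR_le hm hpath h.1.1 hL.le
    rw [spR_eq hm hpath hL.le] at h7
    exact h7
  have h8 : 4 * K * Ee n (gm n) r L (fun x => |iteratedDeriv 1 (Fl n (gm n) r L) x|) ≤
      4 * K * √(r L) := mul_le_mul_of_nonneg_left h6 (by linarith)
  have h9 := long_sqrt hb0.le hr0 hrb
  have h10 : r L / b ^ 2 ≤ r L := by
    rw [div_le_iff₀ (by positivity)]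
    have : 1 ≤ b ^ 2 := by nlinarith
    nlinarith
  have e1 : r (L + 1) / b ^ 2 = (r (L + 1) - r L) / b ^ 2 + r L / b ^ 2 := by ring
  rw [e1] at h5
  linarith

/-! ### (a) -/

/-- the path with the level `L + 1` moved to `r L` -/
lemma long_path {b : ℝ} {n : ℕ} {r : ℕ → ℝ} {L : ℕ} (h : BPath b n r) (hL : L < n) :
    BPath b n (Function.update r (L + 1) (r L)) := by
  have hne : ∀ i, i ≠ L + 1 → Function.update r (L + 1) (r L) i = r i := fun i hi =>
    Function.update_of_ne hi _ _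
  have he : Function.update r (L + 1) (r L) (L + 1) = r L := Function.update_self _ _ _
  have h0 : Function.update r (L + 1) (r L) 0 = r 0 := hne 0 (by omega)
  refine ⟨h0.trans h.1, ⟨?_, ?_⟩, ?_⟩
  · rw [h0]; exact h.2.1.1
  · intro l hl
    by_cases h1 : l = L + 1
    · subst h1
      rw [he, hne (L + 1 + 1) (by omega)]
      exact (h.2.1.2 L hL).trans (h.2.1.2 (L + 1) hl)
    · rw [hne l h1]
      by_cases h2 : l + 1 = L + 1
      · have h3 : l = L := by omega
        subst h3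
        rw [he]
      · rw [hne (l + 1) h2]
        exact h.2.1.2 l hl
  · by_cases h1 : n = L + 1
    · rw [h1, he]
      exact long_r_le h hL.le
    · rw [hne n h1]
      exact h.2.2

/-- the quadratic part of the modified path -/
lemma long_sum {n : ℕ} {m r : ℕ → ℝ} {L : ℕ} (hL : L < n) :
    ∑ l ∈ Finset.range (n + 1), (m (l + 1) - m l) * Function.update r (L + 1) (r L) l ^ 2 =
      ∑ l ∈ Finset.range (n + 1), (m (l + 1) - m l) * r l ^ 2 +
        (m (L + 2) - m (L + 1)) * (r L ^ 2 - r (L + 1) ^ 2) := by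
  have hmem : L + 1 ∈ Finset.range (n + 1) := by rw [Finset.mem_range]; omega
  rw [← Finset.add_sum_erase _ _ hmem, ← Finset.add_sum_erase (Finset.range (n + 1))
    (fun l => (m (l + 1) - m l) * r l ^ 2) hmem]
  have h1 : ∑ l ∈ (Finset.range (n + 1)).erase (L + 1),
      (m (l + 1) - m l) * Function.update r (L + 1) (r L) l ^ 2 =
      ∑ l ∈ (Finset.range (n + 1)).erase (L + 1), (m (l + 1) - m l) * r l ^ 2 := by
    refine Finset.sum_congr rfl fun l hl => ?_
    rw [Function.update_of_ne (Finset.ne_of_mem_erase hl)]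
  rw [h1, Function.update_self]
  ring

/-- the cascade of the modified path -/
lemma long_spin {b : ℝ} {n : ℕ} {m r : ℕ → ℝ} {L : ℕ} (hm : Exponents n m) (h : BPath b n r)
    (hL : L < n) : spinPart n m (Function.update r (L + 1) (r L)) =
      cascade m r L (gstep (m (L + 2)) (r (L + 1) - r L) (Fl n m r (L + 1))) 0 - r n / 2 := by
  have hP := long_path h hL
  have hne : ∀ i, i ≠ L + 1 → Function.update r (L + 1) (r L) i = r i := fun i hi =>
    Function.update_of_ne hi _ _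
  have he : Function.update r (L + 1) (r L) (L + 1) = r L := Function.update_self _ _ _
  have hpos : ∀ l, 1 ≤ l → l ≤ n + 1 → 0 < m l := fun l h1 h2 => gapn_exp_pos hm h1 h2
  have hle1 : ∀ l, l ≤ n + 1 → m l ≤ 1 := fun l h2 => gapn_exp_le_one hm h2
  have hV : 0 ≤ r (L + 1) - r L := sub_nonneg.2 (h.2.1.2 L hL)
  rw [minb_spin hP.1, fl_split (m := m) (r := Function.update r (L + 1) (r L)) hL.le]
  have e1 : cascade m (Function.update r (L + 1) (r L)) L
      (Fl n m (Function.update r (L + 1) (r L)) L) =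
      cascade m r L (Fl n m (Function.update r (L + 1) (r L)) L) :=
    minb_congr (fun _ _ _ => rfl) (fun l hl => hne l (by omega)) _
  rw [e1, fl_succ hL, he, hne L (by omega), sub_self, gstep_zero (hpos (L + 1) (by omega) (by omega)).ne']
  by_cases h1 : n = L + 1
  · subst h1
    rw [he]
    have e2 : Fl (L + 1) m (Function.update r (L + 1) (r L)) (L + 1) = lc := fl_last
    have e3 : Fl (L + 1) m r (L + 1) = lc := fl_last
    rw [e2, e3, show m (L + 2) = 1 from hm.2.1, minb_lc_step hV,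
      minb_cascade_const (fun l h2 h3 => hpos l h2 (by omega)) (fun l h2 h3 => hle1 l (by omega))
        (fun l hl => h.2.1.2 l (by omega)) adm_lc]
    ring
  · have hL1 : L + 1 < n := by omega
    rw [hne n h1, fl_succ hL1, he, hne (L + 1 + 1) (by omega)]
    have e4 : Fl n m (Function.update r (L + 1) (r L)) (L + 1 + 1) = Fl n m r (L + 1 + 1) := by
      unfold Fl
      congr 1
      funext i
      exact hne _ (by omega)
    obtain ⟨C, hG⟩ := fl_good hm h.2.1 (l := L + 1 + 1) (by omega)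
    rw [e4, fl_succ (m := m) (r := r) hL1, gstep_add hG.adm (hpos (L + 2) (by omega) (by omega)) hV
      (sub_nonneg.2 (h.2.1.2 (L + 1) hL1))]
    congr 4
    ring

theorem long_a {b : ℝ} (hb : 1 < b) : ∃ C : ℝ, 1 ≤ C ∧ ∀ (n : ℕ) (r : ℕ → ℝ) (L : ℕ),
    IsMin b n (gm n) r → L < n → r L < r (L + 1) →
    (r (L + 1) - r L) ^ 2 / (2 * b ^ 2) - C * (√(r L) + 1 / (n + 1)) ≤
      ∫ τ in (0 : ℝ)..(r (L + 1) - r L),
        Rf (gm n (L + 1)) (gm n (L + 1)) (r (L + 1) - r L) (Fl n (gm n) r (L + 1)) τ := by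
  have hb0 : 0 < b := by linarith
  obtain ⟨K, hK1, hK⟩ := AKs.ak (b ^ 2)
  obtain ⟨K', hK'0, htilt⟩ := Rf_tilt (b ^ 2)
  refine ⟨1 + 4 * b ^ 2 * K + K' * b ^ 4, ?_, ?_⟩
  · have : 0 ≤ 4 * b ^ 2 * K + K' * b ^ 4 := by positivity
    linarith
  intro n r L h hL hlt
  have hm := gm_exponents n
  have hpath := h.1.2.1
  have hV : 0 < r (L + 1) - r L := sub_pos.2 hlt
  have hg := long_gm_pos n L
  have hg1 : gm n (L + 1) ≤ 1 := long_gm_le (by omega)
  have hg2 := long_gm_pos n (L + 1)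
  have hg21 : gm n (L + 1 + 1) ≤ 1 := long_gm_le (by omega)
  have hgg := long_gm_lt n (L + 1)
  have hδ := gm_sub n (L + 1)
  have hr0 := long_r_nonneg h.1 hL.le
  have hrb := long_r_le h.1 hL.le
  have hrb1 := long_r_le h.1 (show L + 1 ≤ n by omega)
  have hrn := gapn_path_le hpath (show L + 1 ≤ n by omega) le_rfl
  have hFs := fl_aks hm hpath (show L + 1 ≤ n by omega)
  have hF := hFs.adm
  have hsucc := fl_succ (m := gm n) (r := r) hL
  have hmin := h.2 _ (long_path h.1 hL)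
  unfold SKr at hmin
  rw [long_spin hm h.1 hL, minb_spin h.1.1, long_sum hL, fl_split (m := gm n) (r := r) hL.le,
    hsucc] at hmin
  have hGs : AKs (r n - r (L + 1) + (r (L + 1) - r L)) (gstep (gm n (L + 2)) (r (L + 1) - r L)
      (Fl n (gm n) r (L + 1))) := hFs.step (by linarith) hg2 hg21 hV.le
  have hG := hGs.adm
  have hG1 := hF.step hg hg1 hV.le
  have hlow := (hK _ _ (by linarith) (by have := h.1.2.2; linarith) hGs).low
  set F := Fl n (gm n) r (L + 1) with hFd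
  set g := gm n (L + 1) with hgd
  have hgd2 : gm n (L + 2) = gm n (L + 1 + 1) := rfl
  rw [hgd2] at hmin hG hlow
  set g₂ := gm n (L + 1 + 1) with hg₂d
  set V := r (L + 1) - r L with hVd
  have hVb : V ≤ b ^ 2 := by linarith
  obtain ⟨I, hI⟩ : ∃ I, I = ∫ τ in (0 : ℝ)..V, Rf g₂ g V F τ := ⟨_, rfl⟩
  have hintR : IntervalIntegrable (fun τ => Rf g₂ g V F τ) volume 0 V :=
    (Rf_cont hF hg hg1 hg2 hg21).intervalIntegrable_of_Icc hV.le
  -- pointwise bound of the difference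
  have hint : ∀ x, IntervalIntegrable (fun τ => tlt g₂ τ (gstep g (V - τ) F)
      (fun y => iteratedDeriv 1 (gstep g (V - τ) F) y ^ 2) x) volume 0 V := fun x =>
    (vari_cont hF hg x).intervalIntegrable_of_Icc hV.le
  have hpt : ∀ x, gstep g₂ V F x - gstep g V F x ≤
      1 / 2 * (g₂ - g) * I + 1 / 2 * (g₂ - g) * (4 * V * K) *
        |iteratedDeriv 1 (gstep g₂ V F) x| := by
    intro x
    rw [gstep_diff hF hg hg1 hg2 hg21 hV.le x]
    have h1 : ∫ τ in (0 : ℝ)..V, tlt g₂ τ (gstep g (V - τ) F)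
        (fun y => iteratedDeriv 1 (gstep g (V - τ) F) y ^ 2) x ≤
        ∫ τ in (0 : ℝ)..V, (Rf g₂ g V F τ + 4 * min 1 |x|) := by
      refine intervalIntegral.integral_mono_on hV.le (hint x)
        (hintR.add intervalIntegrable_const) fun τ hτ => ?_
      have h2 := blk_lip (hF.step hg hg1 (show 0 ≤ V - τ by linarith [hτ.2])) hg2 hg21 τ x
      have h3 := (abs_le.1 h2).2
      have e1 : Rf g₂ g V F τ = tlt g₂ τ (gstep g (V - τ) F)
        (fun y => iteratedDeriv 1 (gstep g (V - τ) F) y ^ 2) 0 := rfl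
      rw [e1]
      linarith
    have h4 : ∫ τ in (0 : ℝ)..V, (Rf g₂ g V F τ + 4 * min 1 |x|) = I + V * (4 * min 1 |x|) := by
      rw [intervalIntegral.integral_add hintR intervalIntegrable_const,
        intervalIntegral.integral_const, smul_eq_mul, sub_zero, hI]
    rw [h4] at h1
    have h5 : V * (4 * min 1 |x|) ≤ 4 * V * K * |iteratedDeriv 1 (gstep g₂ V F) x| := by
      have h6 := mul_le_mul_of_nonneg_left (hlow x) hV.le
      linarith
    have h7 : 0 ≤ 1 / 2 * (g₂ - g) := by linarith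
    have h8 := mul_le_mul_of_nonneg_left (h1.trans (add_le_add_right h5 I)) h7
    refine h8.trans (le_of_eq ?_)
    ring
  -- convexity
  have hE := ex_ec hG
  have hE1 : Sp7Exp (gm n) L := fun i hi => ⟨long_gm_pos n i, long_gm_le (by omega)⟩
  have hbd : ∃ B, ∀ x, |gstep g₂ V F x - gstep g V F x| ≤ B := by
    refine ⟨1 / 2 * (g₂ - g) * V, fun x => ?_⟩
    have h1 := gstep_exp_mono hF hg hgg.le hg21 hV.le x
    have h2 := gstep_exp_lip hF hg hgg.le hg21 hV.le x
    have h3 : 0 ≤ 1 / 2 * (g₂ - g) * V := by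
      have : 0 ≤ g₂ - g := by linarith
      positivity
    rw [abs_le]
    constructor <;> linarith
  have hconv := casc_convex (m := gm n) (r := r) (l := L) hG1 hG h.1.1
    hE1 (fun i hi => hpath.2 i (by omega)) hbd
  have cd : Sp7Cb (fun x => gstep g₂ V F x - gstep g V F x) :=
    ⟨(ex_ec hG).sm.cont.sub (ex_ec hG1).sm.cont, hbd⟩
  have cD : Sp7Cb (iteratedDeriv 1 (gstep g₂ V F)) := sp7_cb_M hE
  have cD' : Sp7Cb (fun x => 1 / 2 * (g₂ - g) * (4 * V * K) *
      |iteratedDeriv 1 (gstep g₂ V F) x|) := long_cb_smul (long_cb_abs cD) _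
  have h9 := sp7_chn_mono (gm n) r L hE1 hE cd
    (sp7_cb_add (sp7_cb_const (1 / 2 * (g₂ - g) * I)) cD') hpt
  rw [sp7_chn_add (gm n) r L hE1 hE (sp7_cb_const (1 / 2 * (g₂ - g) * I)) cD',
    sp7_chn_const (gm n) r L hE1 hE, long_chn_smul] at h9
  have h10 : chn (gm n) r L (gstep g₂ V F) (fun x => |iteratedDeriv 1 (gstep g₂ V F) x|) ≤
      √(r L) :=
    chn_abs_le hG hE1 (fun i hi => hpath.2 i (by omega)) cD
      (chn_sq_le hG h.1.1 hE1 (fun i hi => hpath.2 i (by omega)))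
  have hd0 : 0 < g₂ - g := by linarith
  have h11 : 1 / 2 * (g₂ - g) * (4 * V * K) * chn (gm n) r L (gstep g₂ V F)
      (fun x => |iteratedDeriv 1 (gstep g₂ V F) x|) ≤
      1 / 2 * (g₂ - g) * (4 * V * K) * √(r L) :=
    mul_le_mul_of_nonneg_left h10 (by positivity)
  -- the inequality from the minimality
  have h12 : (g₂ - g) * ((r (L + 1) ^ 2 - r L ^ 2) / (4 * b ^ 2)) ≤
      1 / 2 * (g₂ - g) * I + 1 / 2 * (g₂ - g) * (4 * V * K) * √(r L) := by
    have e2 : (∑ l ∈ Finset.range (n + 1), (gm n (l + 1) - gm n l) * r l ^ 2 +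
        (g₂ - g) * (r L ^ 2 - r (L + 1) ^ 2)) / (4 * b ^ 2) =
        (∑ l ∈ Finset.range (n + 1), (gm n (l + 1) - gm n l) * r l ^ 2) / (4 * b ^ 2) -
          (g₂ - g) * ((r (L + 1) ^ 2 - r L ^ 2) / (4 * b ^ 2)) := by
      ring
    rw [e2] at hmin
    linarith
  have h13 : (r (L + 1) ^ 2 - r L ^ 2) / (2 * b ^ 2) ≤ I + 4 * V * K * √(r L) := by
    have e3 : (g₂ - g) * ((r (L + 1) ^ 2 - r L ^ 2) / (4 * b ^ 2)) =
        (1 / 2 * (g₂ - g)) * ((r (L + 1) ^ 2 - r L ^ 2) / (2 * b ^ 2)) := by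
      field_simp
      ring
    have e4 : 1 / 2 * (g₂ - g) * I + 1 / 2 * (g₂ - g) * (4 * V * K) * √(r L) =
        (1 / 2 * (g₂ - g)) * (I + 4 * V * K * √(r L)) := by ring
    rw [e3, e4] at h12
    exact le_of_mul_le_mul_left h12 (by linarith)
  have h14 : V ^ 2 / (2 * b ^ 2) ≤ (r (L + 1) ^ 2 - r L ^ 2) / (2 * b ^ 2) := by
    apply div_le_div_of_nonneg_right _ (by positivity)
    rw [hVd]
    nlinarith
  -- change of the tilt
  have h15 : I ≤ (∫ τ in (0 : ℝ)..V, Rf g g V F τ) + K' * (g₂ - g) * (V ^ 2 / 2) := by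
    have h2 : I ≤ ∫ τ in (0 : ℝ)..V, (Rf g g V F τ + K' * (g₂ - g) * τ) := by
      rw [hI]
      refine intervalIntegral.integral_mono_on hV.le ?_ ?_ ?_
      · exact (Rf_cont hF hg hg1 hg2 hg21).intervalIntegrable_of_Icc hV.le
      · exact ContinuousOn.intervalIntegrable_of_Icc hV.le
          ((Rf_cont hF hg hg1 hg hg1).add (by fun_prop))
      · intro τ hτ
        exact htilt _ _ _ _ F hF hg hgg.le hg21 hVb τ hτ
    have h3 : ∫ τ in (0 : ℝ)..V, (Rf g g V F τ + K' * (g₂ - g) * τ) =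
        (∫ τ in (0 : ℝ)..V, Rf g g V F τ) + K' * (g₂ - g) * (V ^ 2 / 2) := by
      rw [intervalIntegral.integral_add
        ((Rf_cont hF hg hg1 hg hg1).intervalIntegrable_of_Icc hV.le)
        (ContinuousOn.intervalIntegrable_of_Icc hV.le (by fun_prop)),
        intervalIntegral.integral_const_mul, integral_id]
      ring
    rw [h3] at h2
    exact h2
  have hV2 : V ^ 2 ≤ b ^ 4 := by
    calc V ^ 2 ≤ (b ^ 2) ^ 2 := pow_le_pow_left₀ hV.le hVb 2
      _ = b ^ 4 := by ring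
  rw [hδ] at h15
  have hN : (0 : ℝ) < 1 / ((n : ℝ) + 1) := by positivity
  have h16 : K' * (1 / ((n : ℝ) + 1)) * (V ^ 2 / 2) ≤ K' * b ^ 4 * (1 / ((n : ℝ) + 1)) := by
    have h17 : V ^ 2 / 2 ≤ b ^ 4 := by
      have : 0 ≤ b ^ 4 := by positivity
      linarith
    have h18 := mul_le_mul_of_nonneg_left h17 (mul_nonneg hK'0 hN.le)
    refine h18.trans (le_of_eq (by ring))
  have h19 : 4 * V * K * √(r L) ≤ 4 * b ^ 2 * K * √(r L) := by
    have : 4 * V * K ≤ 4 * b ^ 2 * K :=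
      mul_le_mul_of_nonneg_right (by linarith) (by linarith)
    exact mul_le_mul_of_nonneg_right this (Real.sqrt_nonneg _)
  have h20 : 0 ≤ √(r L) := Real.sqrt_nonneg _
  have e5 : (1 + 4 * b ^ 2 * K + K' * b ^ 4) * (√(r L) + 1 / ((n : ℝ) + 1)) =
      4 * b ^ 2 * K * √(r L) + K' * b ^ 4 * (1 / ((n : ℝ) + 1)) +
        (√(r L) + 1 / ((n : ℝ) + 1) + 4 * b ^ 2 * K * (1 / ((n : ℝ) + 1)) +
          K' * b ^ 4 * √(r L)) := by ring
  have h21 : 0 ≤ √(r L) + 1 / ((n : ℝ) + 1) + 4 * b ^ 2 * K * (1 / ((n : ℝ) + 1)) +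
      K' * b ^ 4 * √(r L) := by
    have hK0 : 0 < K := by linarith
    positivity
  rw [e5]
  linarith

end Vale.Agent.P146.Pw2
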