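import Vale.Agent.P146.Pw2.T1Defs

/-!
# P146, polynomial lower bound, Parisi side: nested averages (part 1)
-/

open MeasureTheory ProbabilityTheory Filter Topology Set

set_option linter.unusedVariables false

namespace Vale.Agent.P146.Pw2

open Vale.Agent.P157.Par
open Vale.Agent.P146.Gap

variable {n : ℕ} {m r : ℕ → ℝ} {b : ℝ}

/-! ### The functions of the levels -/

theorem fl_last : Fl n m r n = lc := by
  unfold Fl
  rw [Nat.sub_self]
  rfl

theorem fl_zero : Fl n m r 0 = cascade m r n lc := by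
  unfold Fl
  rw [Nat.sub_zero]
  exact minb_congr (fun l _ _ => by rw [zero_add]) (fun l _ => by rw [zero_add]) lc

theorem fl_succ {l : ℕ} (hl : l < n) :
    Fl n m r l = gstep (m (l + 1)) (r (l + 1) - r l) (Fl n m r (l + 1)) := by
  unfold Fl
  obtain ⟨c, hc⟩ : ∃ c, n - l = c + 1 := ⟨n - l - 1, by omega⟩
  have hc' : n - (l + 1) = c := by omega
  rw [hc, hc', comp_shift]
  have e : cascade (fun i => m (l + (i + 1))) (fun i => r (l + (i + 1))) c lc =
      cascade (fun i => m (l + 1 + i)) (fun i => r (l + 1 + i)) c lc := by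
    refine minb_congr (fun i _ _ => ?_) (fun i _ => ?_) lc
    · show m (l + (i + 1)) = m (l + 1 + i)
      congr 1
      omega
    · show r (l + (i + 1)) = r (l + 1 + i)
      congr 1
      omega
  show gstep (m (l + 1)) (r (l + 1) - r (l + 0)) _ = _
  rw [add_zero, e]

theorem fl_split {l : ℕ} (hl : l ≤ n) : cascade m r n lc = cascade m r l (Fl n m r l) := by
  unfold Fl
  rw [← minb_split, Nat.add_sub_cancel' hl]

/-- the functions at the levels are good (from `good_cascade`; the constant is not important) -/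
theorem fl_good (hm : Exponents n m) (hr : Path n r) {l : ℕ} (hl : l ≤ n) :
    ∃ C, Good (m (l + 1)) C (Fl n m r l) := by
  obtain ⟨h1, h2, h3⟩ := minb_exp hm
  have h4 := good_cascade (c := n - l) (m := fun i => m (l + i)) (r := fun i => r (l + i))
    good_lc le_rfl (fun i hi hi' => h2 (l + i) (by omega) (by omega))
    (fun i hi hi' => h1 (l + i) (l + (i + 1)) (by omega) (by omega))
    (fun i hi hi' => h3 (l + i) (by omega)) (fun i hi => hr.2 (l + i) (by omega))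
  refine ⟨2 * Real.exp (2 * (r (l + (n - l)) - r (l + 0))), ?_⟩
  rcases Nat.eq_zero_or_pos (n - l) with h0 | h0
  · rw [if_pos h0] at h4
    have e : m (l + 1) = 1 := by
      have : l = n := by omega
      rw [this]
      exact hm.2.1
    rw [e]
    exact h4
  · rw [if_neg h0.ne'] at h4
    exact h4

theorem fl_ec (hm : Exponents n m) (hr : Path n r) {l : ℕ} (hl : l ≤ n) :
    Ec (Fl n m r l) (iteratedDeriv 1 (Fl n m r l)) (iteratedDeriv 2 (Fl n m r l)) := by
  obtain ⟨C, hC⟩ := fl_good hm hr hl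
  exact adm_ec hC.adm

theorem nest_exp (hm : Exponents n m) {l : ℕ} (hl : l ≤ n) : Sp7Exp m l :=
  fun i hi => sp7_exp_of hm i (by omega)

/-! ### Bounded observables -/

theorem nest_cb1 {C : ℝ} {F : ℝ → ℝ} (h : Adm C F) : Sp7Cb (iteratedDeriv 1 F) :=
  sp7_cb_M (adm_ec h)

theorem nest_cb2 {C : ℝ} {F : ℝ → ℝ} (h : Adm C F) : Sp7Cb (iteratedDeriv 2 F) :=
  ⟨(adm_ec h).cD, 1, (adm_ec h).sm.bD⟩

theorem nest_cb_smul (c : ℝ) {ψ : ℝ → ℝ} (h : Sp7Cb ψ) : Sp7Cb (fun x => c * ψ x) := by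
  obtain ⟨hc, K, hK⟩ := h
  refine ⟨continuous_const.mul hc, |c| * K, fun x => ?_⟩
  rw [abs_mul]
  exact mul_le_mul_of_nonneg_left (hK x) (abs_nonneg c)

theorem nest_cb_abs {ψ : ℝ → ℝ} (h : Sp7Cb ψ) : Sp7Cb (fun x => |ψ x|) := by
  obtain ⟨hc, K, hK⟩ := h
  refine ⟨hc.abs, K, fun x => ?_⟩
  rw [abs_abs]
  exact hK x

theorem nest_cb_mul {ψ φ : ℝ → ℝ} (h : Sp7Cb ψ) (h' : Sp7Cb φ) :
    Sp7Cb (fun x => ψ x * φ x) := by
  obtain ⟨hc, K, hK⟩ := h
  obtain ⟨hc', K', hK'⟩ := h'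
  refine ⟨hc.mul hc', K * K', fun x => ?_⟩
  rw [abs_mul]
  exact mul_le_mul (hK x) (hK' x) (abs_nonneg _) ((abs_nonneg _).trans (hK x))

theorem nest_cb_pow {ψ : ℝ → ℝ} (h : Sp7Cb ψ) (k : ℕ) : Sp7Cb (fun x => ψ x ^ k) := by
  obtain ⟨hc, K, hK⟩ := h
  refine ⟨hc.pow k, K ^ k, fun x => ?_⟩
  rw [abs_pow]
  exact pow_le_pow_left₀ (abs_nonneg _) (hK x) k

/-! ### Nested averages -/

theorem ee_zero (h0 : r 0 = 0) (ψ : ℝ → ℝ) : Ee n m r 0 ψ = ψ 0 := by
  unfold Ee
  rw [chn_zero_def, h0, Real.sqrt_zero]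
  simp

theorem ee_succ {l : ℕ} (hl : l < n) (ψ : ℝ → ℝ) : Ee n m r (l + 1) ψ =
    Ee n m r l (tlt (m (l + 1)) (r (l + 1) - r l) (Fl n m r (l + 1)) ψ) := by
  unfold Ee
  rw [chn_succ_def, ← fl_succ hl]

theorem ee_mono (hm : Exponents n m) (hr : Path n r) {l : ℕ} (hl : l ≤ n) {ψ φ : ℝ → ℝ}
    (hψ : Sp7Cb ψ) (hφ : Sp7Cb φ) (h : ∀ x, ψ x ≤ φ x) : Ee n m r l ψ ≤ Ee n m r l φ :=
  sp7_chn_mono m r l (nest_exp hm hl) (fl_ec hm hr hl) hψ hφ h

theorem ee_add (hm : Exponents n m) (hr : Path n r) {l : ℕ} (hl : l ≤ n) {ψ φ : ℝ → ℝ}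
    (hψ : Sp7Cb ψ) (hφ : Sp7Cb φ) :
    Ee n m r l (fun x => ψ x + φ x) = Ee n m r l ψ + Ee n m r l φ :=
  sp7_chn_add m r l (nest_exp hm hl) (fl_ec hm hr hl) hψ hφ

theorem ee_smul (l : ℕ) (c : ℝ) (ψ : ℝ → ℝ) :
    Ee n m r l (fun x => c * ψ x) = c * Ee n m r l ψ :=
  sp4_chn_const_mul m r c l _ ψ

theorem ee_const (hm : Exponents n m) (hr : Path n r) {l : ℕ} (hl : l ≤ n) (c : ℝ) :
    Ee n m r l (fun _ => c) = c :=
  sp7_chn_const m r l (nest_exp hm hl) (fl_ec hm hr hl) c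

/-! ### The overlaps -/

theorem nest_Rc {m r : ℕ → ℝ} (l : ℕ) : ∀ (c : ℕ), Sp7Exp m (l + c) → ∀ {F M D : ℝ → ℝ},
    Ec F M D → Rc m r (l + c) F M l =
      chn m r l (cascade (fun i => m (l + i)) (fun i => r (l + i)) c F)
        (fun x => iteratedDeriv 1 (cascade (fun i => m (l + i)) (fun i => r (l + i)) c F) x ^ 2) := by
  intro c
  induction c with
  | zero =>
    intro _ F M D h
    have e : cascade (fun i => m (l + i)) (fun i => r (l + i)) 0 F = F := rfl
    rw [e, add_zero, Rc_self, adm_it1 h.d1]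
  | succ c ih =>
    intro hm F M D h
    obtain ⟨hm0, hm1⟩ := hm (l + c) (by omega)
    have h1 := ih (fun i hi => hm i (by omega)) (h.step hm0 hm1 (r (l + c + 1) - r (l + c)))
    rw [← Nat.add_assoc, Rc_succ_le m r (l + c) F M (Nat.le_add_right l c), h1, cascade_succ_def]
    rfl

theorem spR_eq (hm : Exponents n m) (hr : Path n r) {l : ℕ} (hl : l ≤ n) :
    spR n m r l = Ee n m r l (fun x => iteratedDeriv 1 (Fl n m r l) x ^ 2) := by
  have h := nest_Rc (m := m) (r := r) l (n - l)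
    (by rw [Nat.add_sub_cancel' hl]; exact sp7_exp_of hm) ec_logcosh
  rw [Nat.add_sub_cancel' hl] at h
  unfold spR Ee Fl
  exact h

/-! ### Cauchy–Schwarz -/

/-- Cauchy–Schwarz -/
theorem chn_abs_le {C s : ℝ} {F ψ : ℝ → ℝ} (hF : Adm C F) {l : ℕ}
    (hm0 : ∀ i < l, 0 < m (i + 1) ∧ m (i + 1) ≤ 1) (hr : ∀ i < l, r i ≤ r (i + 1))
    (hψ : Sp7Cb ψ) (h : chn m r l F (fun x => ψ x ^ 2) ≤ s) :
    chn m r l F (fun x => |ψ x|) ≤ √s := by
  have he := adm_ec hF
  have ha := nest_cb_abs hψ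
  set w := chn m r l F (fun x => |ψ x|) with hw
  have h1 := sp7_chn_mono m r l hm0 he (sp7_cb_add (nest_cb_smul (2 * w) ha)
    (sp7_cb_const (-w ^ 2))) (sp7_cb_sq hψ) (fun x => by
      have := sq_nonneg (|ψ x| - w)
      have h2 := sq_abs (ψ x)
      nlinarith)
  rw [sp7_chn_add m r l hm0 he (nest_cb_smul (2 * w) ha) (sp7_cb_const (-w ^ 2)),
    sp4_chn_const_mul, sp7_chn_const m r l hm0 he, ← hw] at h1
  exact (le_abs_self w).trans (Real.abs_le_sqrt (by nlinarith))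

/-! ### Convexity of the recursion -/

/-- convexity of one step in the function -/
theorem nest_step_convex {C C' g : ℝ} {F G : ℝ → ℝ} (hF : Adm C F) (hG : Adm C' G) (hg : 0 < g)
    (v : ℝ) {B : ℝ} (hb : ∀ x, |G x - F x| ≤ B) (x : ℝ) :
    gstep g v G x - gstep g v F x ≤ tlt g v G (fun y => G y - F y) x := by
  have heF := adm_ec hF
  have heG := adm_ec hG
  have hcF : Continuous F := heF.sm.cont
  have hcG : Continuous G := heG.sm.cont
  set ψ : ℝ → ℝ := fun y => G y - F y with hψ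
  have hψc : Continuous ψ := hcG.sub hcF
  set a : ℝ := tlt g v G ψ x with ha
  have hF0 := heF.sm.int_exp_pos g v x
  have hG0 := heG.sm.int_exp_pos g v x
  -- `exp (g F) = exp (-g ψ) exp (g G) ≥ exp (-g a) (1 - g (ψ - a)) exp (g G)`
  have h1 : Real.exp (-(g * a)) * ∫ z, Real.exp (g * G (x + √v * z)) ∂(gaussianReal 0 1) ≤
      ∫ z, Real.exp (g * F (x + √v * z)) ∂(gaussianReal 0 1) := by
    have hi := heG.sm.integrable (g := ψ) hψc hb g v x
    have hi0 := heG.sm.integrable_exp g v x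
    have h2 : ∫ z, (Real.exp (-(g * a)) * ((1 + g * a) * Real.exp (g * G (x + √v * z)) -
        g * (ψ (x + √v * z) * Real.exp (g * G (x + √v * z))))) ∂(gaussianReal 0 1) ≤
        ∫ z, Real.exp (g * F (x + √v * z)) ∂(gaussianReal 0 1) := by
      refine integral_mono (((hi0.const_mul _).sub (hi.const_mul _)).const_mul _)
        (heF.sm.integrable_exp g v x) fun z => ?_
      simp only
      set y := x + √v * z
      have h3 : Real.exp (g * F y) =
          Real.exp (-(g * a)) * (Real.exp (g * (a - ψ y)) * Real.exp (g * G y)) := by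
        rw [← Real.exp_add, ← Real.exp_add]
        congr 1
        simp only [hψ]
        ring
      rw [h3]
      refine mul_le_mul_of_nonneg_left ?_ (Real.exp_pos _).le
      have h4 := Real.add_one_le_exp (g * (a - ψ y))
      have h5 := mul_le_mul_of_nonneg_right h4 (Real.exp_pos (g * G y)).le
      linarith
    refine le_trans (le_of_eq ?_) h2
    rw [integral_const_mul, integral_sub (hi0.const_mul _) (hi.const_mul _), integral_const_mul,
      integral_const_mul]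
    have h6 : ∫ z, ψ (x + √v * z) * Real.exp (g * G (x + √v * z)) ∂(gaussianReal 0 1) =
        a * ∫ z, Real.exp (g * G (x + √v * z)) ∂(gaussianReal 0 1) := by
      rw [ha]
      unfold tlt
      field_simp
    rw [h6]
    ring
  have h7 := Real.log_le_log (mul_pos (Real.exp_pos _) hG0) h1
  rw [Real.log_mul (Real.exp_pos _).ne' hG0.ne', Real.log_exp] at h7
  unfold gstep
  rw [← mul_sub, one_div, inv_mul_le_iff₀ hg]
  linarith

/-- convexity of the recursion in the function -/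
theorem casc_convex {C C' : ℝ} {F G : ℝ → ℝ} (hF : Adm C F) (hG : Adm C' G) (h0 : r 0 = 0)
    {l : ℕ} (hm0 : ∀ i < l, 0 < m (i + 1) ∧ m (i + 1) ≤ 1) (hr : ∀ i < l, r i ≤ r (i + 1))
    (hb : ∃ B, ∀ x, |G x - F x| ≤ B) :
    cascade m r l G 0 - cascade m r l F 0 ≤ chn m r l G (fun x => G x - F x) := by
  induction l generalizing F G C C' with
  | zero =>
    rw [chn_zero_def, h0, Real.sqrt_zero]
    have e : ∀ H : ℝ → ℝ, cascade m r 0 H = H := fun _ => rfl
    rw [e, e]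
    simp
  | succ l ih =>
    obtain ⟨g0, g1⟩ := hm0 l (Nat.lt_succ_self l)
    have hv : 0 ≤ r (l + 1) - r l := sub_nonneg.2 (hr l (Nat.lt_succ_self l))
    obtain ⟨B, hB⟩ := hb
    have hm' : Sp7Exp m l := fun i hi => hm0 i (by omega)
    have hF' := hF.step g0 g1 hv
    have hG' := hG.step g0 g1 hv
    have h1 := ih hF' hG' hm' (fun i hi => hr i (by omega))
      ⟨B, gstep_nonexp hG hF g0 _ hB⟩
    rw [cascade_succ_def, cascade_succ_def, chn_succ_def]
    refine h1.trans ?_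
    have hc : Sp7Cb (fun x => G x - F x) :=
      ⟨(adm_ec hG).sm.cont.sub (adm_ec hF).sm.cont, B, hB⟩
    refine sp7_chn_mono m r l hm' (adm_ec hG') ?_ (sp7_cb_tlt (adm_ec hG) hc _ _) ?_
    · exact ⟨(adm_ec hG').sm.cont.sub (adm_ec hF').sm.cont, B, gstep_nonexp hG hF g0 _ hB⟩
    · intro x
      exact nest_step_convex hF hG g0 _ hB x

/-! ### The second moments of the second derivative -/

theorem Ml_zero (h0 : r 0 = 0) : Ml n m r 0 = iteratedDeriv 2 (cascade m r n lc) 0 ^ 2 := by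
  unfold Ml
  rw [ee_zero h0, fl_zero]

theorem Ml_last (hm : Exponents n m) (hr : Path n r) : 1 - 2 * spR n m r n ≤ Ml n m r n := by
  have hT : Sp7Cb Real.tanh := sp7_cb_M ec_logcosh
  have e2 : (fun x => iteratedDeriv 2 (Fl n m r n) x ^ 2) =
      fun x => (1 - Real.tanh x ^ 2) ^ 2 := by
    rw [fl_last, adm_lc_it2]
  have e1 : spR n m r n = Ee n m r n (fun x => Real.tanh x ^ 2) := by
    rw [spR_eq hm hr le_rfl, fl_last, adm_lc_it1]
  have hcb : Sp7Cb (fun x => (1 - Real.tanh x ^ 2) ^ 2) := by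
    have h1 := sp7_cb_sq (sp7_cb_add (sp7_cb_const 1) (sp7_cb_neg (sp7_cb_sq hT)))
    have e : (fun x => (1 + -(Real.tanh x ^ 2)) ^ 2) = fun x => (1 - Real.tanh x ^ 2) ^ 2 := by
      funext x
      ring
    rw [← e]
    exact h1
  have h2 := ee_mono hm hr le_rfl (sp7_cb_add (sp7_cb_const 1) (nest_cb_smul (-2) (sp7_cb_sq hT)))
    hcb (fun x => by
      have := sq_nonneg (Real.tanh x ^ 2)
      nlinarith)
  rw [ee_add hm hr le_rfl (sp7_cb_const 1) (nest_cb_smul (-2) (sp7_cb_sq hT)), ee_smul,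
    ee_const hm hr le_rfl, ← e1] at h2
  unfold Ml
  rw [e2]
  linarith

end Vale.Agent.P146.Pw2
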