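import Vale.Agent.P146.Gap.Comp
import Vale.Agent.P146.Gap.Minb
import Vale.Agent.P146.Pw2.Defs

/-!
# P146 / Pw2: competitors on the uniform grid of exponents
-/

set_option linter.all false

open MeasureTheory ProbabilityTheory Filter Topology Set

namespace Vale.Agent.P146.Pw2

open Vale.Agent.P157.Par
open Vale.Agent.P146.Gap

/-! ### cascades -/

theorem grid_congr {m r r' : ℕ → ℝ} : ∀ (c : ℕ) (F : ℝ → ℝ), (∀ l ≤ c, r l = r' l) →
    cascade m r c F = cascade m r' c F := by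
  intro c
  induction c with
  | zero => intro F _; rfl
  | succ c ih =>
    intro F h
    rw [cascade_succ_def, cascade_succ_def, h (c + 1) le_rfl, h c (Nat.le_succ c)]
    exact ih _ fun l hl => h l (hl.trans (Nat.le_succ c))

theorem grid_const {m r : ℕ → ℝ} {L : ℕ} : ∀ (d : ℕ) (F : ℝ → ℝ),
    (∀ l, 1 ≤ l → l ≤ L + d → 0 < m l) → (∀ l, L ≤ l → l ≤ L + d → r l = r L) →
    cascade m r (L + d) F = cascade m r L F := by
  intro d
  induction d with
  | zero => intro F _ _; rfl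
  | succ d ih =>
    intro F hm h
    have e : L + (d + 1) = (L + d) + 1 := rfl
    rw [e, cascade_succ_def, h (L + d + 1) (by omega) (by omega), h (L + d) (by omega) (by omega),
      sub_self, comp_gstep_zero (hm (L + d + 1) (by omega) (by omega)).ne']
    exact ih F (fun l a b => hm l a (by omega)) (fun l a b => h l a (by omega))

/-- Increasing the path by a constant above the level `L`. -/
theorem grid_insert {m r r' : ℕ → ℝ} {L d : ℕ} {v : ℝ} {F : ℝ → ℝ} {K : NNReal}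
    (hF : LipschitzWith K F) (hv : 0 ≤ v)
    (hm : ∀ l, 1 ≤ l → l ≤ L + 1 + d → 0 < m l) (h1 : ∀ l ≤ L, r' l = r l)
    (h2 : ∀ l, L + 1 ≤ l → l ≤ L + 1 + d → r' l = r l + v)
    (h3 : ∀ l, L + 1 ≤ l → l ≤ L + 1 + d → r l = r (L + 1)) (h4 : r L ≤ r (L + 1)) :
    cascade m r' (L + 1 + d) F = cascade m r (L + 1 + d) (gstep (m (L + 1)) v F) := by
  rw [grid_const d F hm (fun l a b => by rw [h2 l a b, h3 l a b, h2 (L + 1) le_rfl (by omega)]),
    grid_const d _ hm h3, cascade_succ_def, cascade_succ_def,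
    comp_add (hm (L + 1) (by omega) (by omega)) (by linarith) hv hF,
    h2 (L + 1) le_rfl (by omega), h1 L le_rfl]
  have e : r (L + 1) + v - r L = r (L + 1) - r L + v := by ring
  rw [e]
  exact grid_congr L _ h1

theorem grid_le {g v c : ℝ} (hg : 0 < g) {F G : ℝ → ℝ} {K K' : NNReal} (hF : LipschitzWith K F)
    (hG : LipschitzWith K' G) (h : ∀ x, F x ≤ G x + c) (x : ℝ) :
    gstep g v F x ≤ gstep g v G x + c := by
  unfold gstep
  have h1 : ∫ z, Real.exp (g * F (x + √v * z)) ∂(gaussianReal 0 1) ≤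
      Real.exp (g * c) * ∫ z, Real.exp (g * G (x + √v * z)) ∂(gaussianReal 0 1) := by
    rw [← integral_const_mul]
    refine integral_mono (comp_int hF g v x) ((comp_int hG g v x).const_mul _) fun z => ?_
    simp only []
    rw [← Real.exp_add]
    refine Real.exp_le_exp.2 ?_
    have := mul_le_mul_of_nonneg_left (h (x + √v * z)) hg.le
    linarith
  have h2 := comp_pos hF g v x
  have h3 := comp_pos hG g v x
  have h4 := Real.log_le_log h2 h1
  rw [Real.log_mul (Real.exp_pos _).ne' h3.ne', Real.log_exp] at h4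
  have h5 : 1 / g * (g * c) = c := by field_simp
  calc 1 / g * Real.log (∫ z, Real.exp (g * F (x + √v * z)) ∂(gaussianReal 0 1))
      ≤ 1 / g * (g * c + Real.log (∫ z, Real.exp (g * G (x + √v * z)) ∂(gaussianReal 0 1))) :=
        mul_le_mul_of_nonneg_left h4 (by positivity)
    _ = _ := by rw [mul_add, h5]; ring

theorem grid_casc_le {c : ℝ} {m r : ℕ → ℝ} : ∀ (k : ℕ) (F G : ℝ → ℝ), LipschitzWith 1 F →
    LipschitzWith 1 G → (∀ l, 1 ≤ l → l ≤ k → 0 < m l) → (∀ x, F x ≤ G x + c) →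
    ∀ x, cascade m r k F x ≤ cascade m r k G x + c := by
  intro k
  induction k with
  | zero => intro F G _ _ _ h; exact h
  | succ k ih =>
    intro F G hF hG hm h
    rw [cascade_succ_def, cascade_succ_def]
    have h0 := hm (k + 1) (by omega) le_rfl
    exact ih _ _ (comp_lip h0 hF) (comp_lip h0 hG) (fun l a b => hm l a (by omega))
      (grid_le h0 hF hG h)

theorem grid_adm_lip {C : ℝ} {F : ℝ → ℝ} (h : Adm C F) : LipschitzWith 1 F := by
  have h1 := (adm_ec h).sm.lip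
  refine LipschitzWith.of_dist_le_mul fun x y => ?_
  rw [Real.dist_eq, Real.dist_eq]
  simpa using h1 x y

/-! ### the grid -/

/-- The last index below the exponent `m l` of the grid. -/
noncomputable def gJ (n k : ℕ) (μ : ℕ → ℝ) (l : ℕ) : ℕ :=
  @Nat.findGreatest (fun i => μ i ≤ gm n l) (Classical.decPred _) k

theorem gJ_le (n k : ℕ) (μ : ℕ → ℝ) (l : ℕ) : gJ n k μ l ≤ k :=
  @Nat.findGreatest_le (fun i => μ i ≤ gm n l) (Classical.decPred _) k

theorem grid_gm_nonneg (n l : ℕ) : 0 ≤ gm n l := by unfold gm; positivity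

theorem grid_gm_mono {n l l' : ℕ} (h : l ≤ l') : gm n l ≤ gm n l' := by
  unfold gm
  have : (l : ℝ) ≤ l' := by exact_mod_cast h
  gcongr

theorem grid_gm_pos {n l : ℕ} (h : 1 ≤ l) : 0 < gm n l := by
  unfold gm
  have : (0 : ℝ) < l := by exact_mod_cast h
  positivity

theorem grid_gm_top (n : ℕ) : gm n (n + 1) = 1 := (gm_exponents n).2.1

theorem gJ_spec {n k : ℕ} {μ : ℕ → ℝ} (hμ : Exponents k μ) (l : ℕ) :
    μ (gJ n k μ l) ≤ gm n l := by
  have h : μ 0 ≤ gm n l := by rw [hμ.1]; exact grid_gm_nonneg n l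
  exact @Nat.findGreatest_spec 0 (fun i => μ i ≤ gm n l) (Classical.decPred _) k (Nat.zero_le k) h

theorem le_gJ {n k : ℕ} {μ : ℕ → ℝ} {l i : ℕ} (hi : i ≤ k) (h : μ i ≤ gm n l) :
    i ≤ gJ n k μ l :=
  @Nat.le_findGreatest i (fun i => μ i ≤ gm n l) (Classical.decPred _) k hi h

theorem grid_exp_mono {k : ℕ} {μ : ℕ → ℝ} (hμ : Exponents k μ) {i j : ℕ} (hij : i ≤ j)
    (hj : j ≤ k + 1) : μ i ≤ μ j := by
  obtain ⟨d, rfl⟩ := Nat.exists_eq_add_of_le hij
  induction d with
  | zero => exact le_rfl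
  | succ d ih =>
    exact (ih (by omega) (by omega)).trans (hμ.2.2 (i + d) (by omega)).le

theorem gJ_lt {n k : ℕ} {μ : ℕ → ℝ} (hμ : Exponents k μ) {l i : ℕ} (hi : i ≤ k)
    (h : gm n l < μ i) : gJ n k μ l < i := by
  by_contra hc
  have h1 := grid_exp_mono hμ (not_lt.1 hc) ((gJ_le n k μ l).trans (Nat.le_succ k))
  have h2 := gJ_spec (n := n) hμ l
  linarith

theorem gJ_mono {n k : ℕ} {μ : ℕ → ℝ} (hμ : Exponents k μ) {l l' : ℕ} (h : l ≤ l') :
    gJ n k μ l ≤ gJ n k μ l' :=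
  le_gJ (gJ_le n k μ l) ((gJ_spec hμ l).trans (grid_gm_mono h))

theorem gJ_top {n k : ℕ} {μ : ℕ → ℝ} (hμ : Exponents k μ) : gJ n k μ (n + 1) = k := by
  refine le_antisymm (gJ_le _ _ _ _) (le_gJ le_rfl ?_)
  rw [grid_gm_top, ← hμ.2.1]
  exact (hμ.2.2 k le_rfl).le

theorem gJ_zero {n k : ℕ} {μ : ℕ → ℝ} (hμ : Exponents k μ) : gJ n k μ 0 = 0 := by
  by_contra hc
  have h1 : 1 ≤ gJ n k μ 0 := Nat.one_le_iff_ne_zero.2 hc
  have h2 := grid_exp_mono hμ h1 ((gJ_le n k μ 0).trans (Nat.le_succ k))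
  have h3 := gJ_spec (n := n) hμ 0
  have h4 : gm n 0 = 0 := by simp [gm]
  have h5 := hμ.2.2 0 (Nat.zero_le k)
  rw [hμ.1] at h5
  rw [h4] at h3
  linarith

theorem grid_path_mono {k : ℕ} {p : ℕ → ℝ} (hp : Path k p) {i j : ℕ} (hij : i ≤ j) (hj : j ≤ k) :
    p i ≤ p j := by
  obtain ⟨d, rfl⟩ := Nat.exists_eq_add_of_le hij
  induction d with
  | zero => exact le_rfl
  | succ d ih =>
    exact (ih (by omega) (by omega)).trans (hp.2 (i + d) (by omega))

/-- The rounding of an exponent. -/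
theorem grid_ceil {n : ℕ} {x : ℝ} (hx : 0 < x) (hx1 : x ≤ 1) : ∃ L : ℕ, L ≤ n ∧
    gm n L < x ∧ x ≤ gm n (L + 1) := by
  have hn : (0 : ℝ) < (n : ℝ) + 1 := by positivity
  have hpos : 0 < ⌈x * (n + 1)⌉₊ := Nat.ceil_pos.2 (by positivity)
  refine ⟨⌈x * (n + 1)⌉₊ - 1, ?_, ?_, ?_⟩
  · have h1 : ⌈x * ((n : ℝ) + 1)⌉₊ ≤ n + 1 := by
      rw [Nat.ceil_le]
      push_cast
      nlinarith
    omega
  · unfold gm
    rw [div_lt_iff₀ hn]
    have h1 := Nat.ceil_lt_add_one (a := x * ((n : ℝ) + 1)) (by positivity)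
    have h2 : ((⌈x * ((n : ℝ) + 1)⌉₊ - 1 : ℕ) : ℝ) = (⌈x * ((n : ℝ) + 1)⌉₊ : ℝ) - 1 := by
      rw [Nat.cast_sub hpos, Nat.cast_one]
    rw [h2]
    linarith
  · rw [Nat.sub_add_cancel hpos]
    unfold gm
    rw [le_div_iff₀ hn]
    exact Nat.le_ceil _

/-- The comparison of the cascades. -/
theorem grid_casc {b : ℝ} {n k : ℕ} {μ p : ℕ → ℝ} (hμ : Exponents k μ) (hp : Path k p) :
    ∀ j, j ≤ k → ∀ (C : ℝ) (F : ℝ → ℝ), Adm C F → ∀ x,
      cascade (gm n) (fun l => b ^ 2 * p (min j (gJ n k μ l))) (n + 1) F x ≤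
        cascade μ (fun l => b ^ 2 * p l) j F x + b ^ 2 * (p j - p 0) / (2 * (n + 1)) := by
  have hgp : ∀ l, 1 ≤ l → 0 < gm n l := fun l hl => grid_gm_pos hl
  have hn : (0 : ℝ) < (n : ℝ) + 1 := by positivity
  intro j
  induction j with
  | zero =>
    intro _ C F hF x
    have e1 : (fun l => b ^ 2 * p (min 0 (gJ n k μ l))) = fun _ => b ^ 2 * p 0 := by
      funext l
      rw [Nat.zero_min]
    have e2 := grid_const (m := gm n) (r := fun _ => b ^ 2 * p 0) (L := 0) (n + 1) F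
      (fun l a _ => hgp l a) (fun l _ _ => rfl)
    rw [Nat.zero_add] at e2
    rw [e1, e2]
    have e3 : cascade (gm n) (fun _ => b ^ 2 * p 0) 0 F x = F x := rfl
    have e4 : cascade μ (fun l => b ^ 2 * p l) 0 F x = F x := rfl
    rw [e3, e4, sub_self, mul_zero, zero_div, add_zero]
  | succ j ih =>
    intro hj C F hF x
    have hμ0 : 0 < μ (j + 1) := by
      have h1 := hμ.2.2 0 (Nat.zero_le k)
      rw [hμ.1] at h1
      exact h1.trans_le (grid_exp_mono hμ (by omega) (by omega))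
    have hμ1 : μ (j + 1) ≤ 1 := by
      rw [← hμ.2.1]
      exact grid_exp_mono hμ (by omega) le_rfl
    have hv : 0 ≤ b ^ 2 * (p (j + 1) - p j) :=
      mul_nonneg (sq_nonneg b) (sub_nonneg.2 (hp.2 j (by omega)))
    obtain ⟨L, hLn, hL1, hL2⟩ := grid_ceil (n := n) hμ0 hμ1
    obtain ⟨d, hd⟩ := Nat.exists_eq_add_of_le hLn
    have hnd : n + 1 = L + 1 + d := by omega
    have hlow : ∀ l ≤ L, gJ n k μ l ≤ j := by
      intro l hl
      have := gJ_lt (n := n) hμ hj ((grid_gm_mono hl).trans_lt hL1)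
      omega
    have hhigh : ∀ l, L + 1 ≤ l → j + 1 ≤ gJ n k μ l := fun l hl =>
      le_gJ hj (hL2.trans (grid_gm_mono hl))
    have hins := grid_insert (m := gm n) (r := fun l => b ^ 2 * p (min j (gJ n k μ l)))
      (r' := fun l => b ^ 2 * p (min (j + 1) (gJ n k μ l))) (L := L) (d := d)
      (v := b ^ 2 * (p (j + 1) - p j)) (grid_adm_lip hF) hv (fun l a _ => hgp l a)
      (fun l hl => by
        have h1 := hlow l hl
        rw [min_eq_right (by omega), min_eq_right h1])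
      (fun l a _ => by
        have h1 := hhigh l a
        rw [min_eq_left h1, min_eq_left (by omega)]
        ring)
      (fun l a _ => by
        have h1 := hhigh l a
        have h2 := hhigh (L + 1) le_rfl
        rw [min_eq_left (by omega), min_eq_left (by omega)])
      (by
        refine mul_le_mul_of_nonneg_left (grid_path_mono hp ?_ ?_) (sq_nonneg b)
        · exact min_le_min_left j (gJ_mono hμ (Nat.le_succ L))
        · exact (min_le_left _ _).trans (by omega))
    rw [← hnd] at hins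
    rw [hins]
    have hA : Adm (C * Real.exp (2 * μ (j + 1) * (b ^ 2 * (p (j + 1) - p j))))
        (gstep (μ (j + 1)) (b ^ 2 * (p (j + 1) - p j)) F) := hF.step hμ0 hμ1 hv
    have hg1 : gm n (L + 1) ≤ 1 := by
      rw [← grid_gm_top n]
      exact grid_gm_mono (by omega)
    have hstep : ∀ y, gstep (gm n (L + 1)) (b ^ 2 * (p (j + 1) - p j)) F y ≤
        gstep (μ (j + 1)) (b ^ 2 * (p (j + 1) - p j)) F y +
          b ^ 2 * (p (j + 1) - p j) / (2 * (n + 1)) := by
      intro y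
      have h1 := gstep_exp_lip hF hμ0 hL2 hg1 hv y
      have h2 : gm n (L + 1) - μ (j + 1) ≤ 1 / (n + 1) := by
        have := gm_sub n L
        linarith
      have h3 : 1 / 2 * (gm n (L + 1) - μ (j + 1)) * (b ^ 2 * (p (j + 1) - p j)) ≤
          1 / 2 * (1 / (n + 1)) * (b ^ 2 * (p (j + 1) - p j)) :=
        mul_le_mul_of_nonneg_right (mul_le_mul_of_nonneg_left h2 (by norm_num)) hv
      have h4 : 1 / 2 * (1 / ((n : ℝ) + 1)) * (b ^ 2 * (p (j + 1) - p j)) =
          b ^ 2 * (p (j + 1) - p j) / (2 * (n + 1)) := by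
        field_simp
      linarith
    have h1 := grid_casc_le (m := gm n) (r := fun l => b ^ 2 * p (min j (gJ n k μ l))) (n + 1) _ _
      (comp_lip (hgp (L + 1) (by omega)) (grid_adm_lip hF)) (grid_adm_lip hA)
      (fun l a _ => hgp l a) hstep x
    have h2 := ih (by omega) _ _ hA x
    have h3 : cascade μ (fun l => b ^ 2 * p l) (j + 1) F =
        cascade μ (fun l => b ^ 2 * p l) j
          (gstep (μ (j + 1)) (b ^ 2 * (p (j + 1) - p j)) F) := by
      rw [cascade_succ_def]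
      have e : b ^ 2 * p (j + 1) - b ^ 2 * p j = b ^ 2 * (p (j + 1) - p j) := by ring
      rw [e]
    rw [h3]
    refine h1.trans ?_
    have h4 : b ^ 2 * (p (j + 1) - p 0) / (2 * ((n : ℝ) + 1)) =
        b ^ 2 * (p j - p 0) / (2 * (n + 1)) + b ^ 2 * (p (j + 1) - p j) / (2 * (n + 1)) := by
      rw [← add_div]
      congr 1
      ring
    rw [h4]
    linarith

/-- The comparison of the sums. -/
theorem grid_sum {n k : ℕ} {μ f : ℕ → ℝ} (hμ : Exponents k μ) (hf : ∀ l < k, f l ≤ f (l + 1)) :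
    ∀ j, j ≤ k → ∑ l ∈ Finset.range (n + 1), (gm n (l + 1) - gm n l) * f (min j (gJ n k μ l)) ≤
      ∑ l ∈ Finset.range (k + 1), (μ (l + 1) - μ l) * f (min j l) := by
  intro j
  induction j with
  | zero =>
    intro _
    simp only [Nat.zero_min]
    rw [← Finset.sum_mul, ← Finset.sum_mul, Finset.sum_range_sub, Finset.sum_range_sub,
      grid_gm_top, hμ.2.1, hμ.1]
    have h4 : gm n 0 = 0 := by simp [gm]
    rw [h4]
  | succ j ih =>
    intro hj
    have hμ0 : 0 < μ (j + 1) := by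
      have h1 := hμ.2.2 0 (Nat.zero_le k)
      rw [hμ.1] at h1
      exact h1.trans_le (grid_exp_mono hμ (by omega) (by omega))
    have hμ1 : μ (j + 1) ≤ 1 := by
      rw [← hμ.2.1]
      exact grid_exp_mono hμ (by omega) le_rfl
    obtain ⟨L, hLn, hL1, hL2⟩ := grid_ceil (n := n) hμ0 hμ1
    have hlow : ∀ l ≤ L, gJ n k μ l ≤ j := by
      intro l hl
      have := gJ_lt (n := n) hμ hj ((grid_gm_mono hl).trans_lt hL1)
      omega
    have hhigh : ∀ l, L + 1 ≤ l → j + 1 ≤ gJ n k μ l := fun l hl =>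
      le_gJ hj (hL2.trans (grid_gm_mono hl))
    have hfj : 0 ≤ f (j + 1) - f j := sub_nonneg.2 (hf j (by omega))
    -- the grid
    have e1 : ∑ l ∈ Finset.range (n + 1),
        (gm n (l + 1) - gm n l) * f (min (j + 1) (gJ n k μ l)) =
        ∑ l ∈ Finset.range (n + 1), (gm n (l + 1) - gm n l) * f (min j (gJ n k μ l)) +
          (1 - gm n (L + 1)) * (f (j + 1) - f j) := by
      obtain ⟨d, hd⟩ := Nat.exists_eq_add_of_le hLn
      have hnd : n + 1 = (L + 1) + d := by omega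
      have s1 : ∀ l ∈ Finset.range (L + 1), (gm n (l + 1) - gm n l) *
          f (min (j + 1) (gJ n k μ l)) = (gm n (l + 1) - gm n l) * f (min j (gJ n k μ l)) := by
        intro l hl
        have h1 := hlow l (by have := Finset.mem_range.1 hl; omega)
        rw [min_eq_right (by omega), min_eq_right h1]
      have s2 : ∀ l ∈ Finset.range d, (gm n (L + 1 + l + 1) - gm n (L + 1 + l)) *
          f (min (j + 1) (gJ n k μ (L + 1 + l))) = (gm n (L + 1 + l + 1) - gm n (L + 1 + l)) *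
          f (min j (gJ n k μ (L + 1 + l))) + (gm n (L + 1 + (l + 1)) - gm n (L + 1 + l)) *
            (f (j + 1) - f j) := by
        intro l _
        have h1 := hhigh (L + 1 + l) (by omega)
        rw [min_eq_left h1, min_eq_left (by omega)]
        have e : L + 1 + (l + 1) = L + 1 + l + 1 := rfl
        rw [e]
        ring
      rw [hnd, Finset.sum_range_add _ (L + 1) d, Finset.sum_range_add _ (L + 1) d,
        Finset.sum_congr rfl s1,
        Finset.sum_congr rfl s2, Finset.sum_add_distrib, ← Finset.sum_mul,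
        Finset.sum_range_sub (fun l => gm n (L + 1 + l)) d, ← hnd, grid_gm_top, Nat.add_zero]
      ring
    have e2 : ∑ l ∈ Finset.range (k + 1), (μ (l + 1) - μ l) * f (min (j + 1) l) =
        ∑ l ∈ Finset.range (k + 1), (μ (l + 1) - μ l) * f (min j l) +
          (1 - μ (j + 1)) * (f (j + 1) - f j) := by
      obtain ⟨d, hd⟩ := Nat.exists_eq_add_of_le hj
      have hnd : k + 1 = (j + 1) + (d + 1) := by omega
      have s1 : ∀ l ∈ Finset.range (j + 1), (μ (l + 1) - μ l) * f (min (j + 1) l) =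
          (μ (l + 1) - μ l) * f (min j l) := by
        intro l hl
        have h1 := Finset.mem_range.1 hl
        rw [min_eq_right (by omega), min_eq_right (by omega)]
      have s2 : ∀ l ∈ Finset.range (d + 1), (μ (j + 1 + l + 1) - μ (j + 1 + l)) *
          f (min (j + 1) (j + 1 + l)) = (μ (j + 1 + l + 1) - μ (j + 1 + l)) *
          f (min j (j + 1 + l)) + (μ (j + 1 + (l + 1)) - μ (j + 1 + l)) *
            (f (j + 1) - f j) := by
        intro l _
        rw [min_eq_left (by omega), min_eq_left (by omega)]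
        have e : j + 1 + (l + 1) = j + 1 + l + 1 := rfl
        rw [e]
        ring
      rw [hnd, Finset.sum_range_add _ (j + 1) (d + 1), Finset.sum_range_add _ (j + 1) (d + 1),
        Finset.sum_congr rfl s1,
        Finset.sum_congr rfl s2, Finset.sum_add_distrib, ← Finset.sum_mul,
        Finset.sum_range_sub (fun l => μ (j + 1 + l)) (d + 1), ← hnd, hμ.2.1, Nat.add_zero]
      ring
    rw [e1, e2]
    have h1 := ih (by omega)
    have h2 : (1 - gm n (L + 1)) * (f (j + 1) - f j) ≤ (1 - μ (j + 1)) * (f (j + 1) - f j) :=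
      mul_le_mul_of_nonneg_right (by linarith) hfj
    linarith

/-- Every path is rounded to the uniform grid of exponents. -/
theorem grid_path (b : ℝ) (n : ℕ) {k : ℕ} {μ p : ℕ → ℝ} (hμ : Exponents k μ) (hp : Path k p)
    (hp1 : p k ≤ 1) : ∃ q : ℕ → ℝ, Path n q ∧ q n ≤ 1 ∧
      SKpar b n (gm n) q ≤ SKpar b k μ p + b ^ 2 / (2 * (n + 1)) := by
  have hn : (0 : ℝ) < (n : ℝ) + 1 := by positivity
  have hp0 : ∀ l ≤ k, 0 ≤ p l := fun l hl => hp.1.trans (grid_path_mono hp (Nat.zero_le l) hl)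
  refine ⟨fun l => p (gJ n k μ l), ⟨hp0 _ (gJ_le _ _ _ _), fun l _ =>
    grid_path_mono hp (gJ_mono hμ (Nat.le_succ l)) (gJ_le _ _ _ _)⟩,
    (grid_path_mono hp (gJ_le _ _ _ _) le_rfl).trans hp1, ?_⟩
  have hJ : ∀ l, min k (gJ n k μ l) = gJ n k μ l := fun l => min_eq_right (gJ_le _ _ _ _)
  -- the sums
  have hs := grid_sum (n := n) (f := fun l => p l ^ 2) hμ (fun l hl =>
    pow_le_pow_left₀ (hp0 l hl.le) (hp.2 l hl) 2) k le_rfl
  have hs2 : ∑ l ∈ Finset.range (k + 1), (μ (l + 1) - μ l) * p (min k l) ^ 2 =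
      ∑ l ∈ Finset.range (k + 1), (μ (l + 1) - μ l) * p l ^ 2 := by
    refine Finset.sum_congr rfl fun l hl => ?_
    rw [min_eq_right (by have := Finset.mem_range.1 hl; omega)]
  simp only [hJ] at hs
  rw [hs2] at hs
  -- the cascades
  have hc := grid_casc (b := b) (n := n) hμ hp k le_rfl 2 lc adm_lc
  simp only [hJ] at hc
  have hv : 0 ≤ b ^ 2 * p k - b ^ 2 * p (gJ n k μ n) := by
    have := mul_le_mul_of_nonneg_left (grid_path_mono hp (gJ_le n k μ n) le_rfl) (sq_nonneg b)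
    linarith
  have h2 : ∀ x, cascade (gm n) (fun l => b ^ 2 * p (gJ n k μ l)) (n + 1) lc x =
      cascade (gm n) (fun l => b ^ 2 * p (gJ n k μ l)) n lc x +
        (b ^ 2 * p k - b ^ 2 * p (gJ n k μ n)) / 2 := by
    intro x
    rw [cascade_succ_def, grid_gm_top, gJ_top hμ, minb_lc_step hv,
      minb_cascade_const (fun l a _ => grid_gm_pos a) (fun l _ c => by
        rw [← grid_gm_top n]; exact grid_gm_mono (by omega)) (fun l _ =>
        mul_le_mul_of_nonneg_left (grid_path_mono hp (gJ_mono hμ (Nat.le_succ l)) (gJ_le _ _ _ _))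
          (sq_nonneg b)) adm_lc]
  have hL : ∀ (m r : ℕ → ℝ) (c : ℕ), (∀ l, 1 ≤ l → l ≤ c → 0 < m l) →
      Integrable (fun z => cascade m r c lc (√(r 0) * z)) (gaussianReal 0 1) := fun m r c h =>
    comp_int_lip (comp_casc_lip (F := lc) c lc (grid_adm_lip adm_lc) h) (r 0)
  have hspin : spinPart n (gm n) (fun l => b ^ 2 * p (gJ n k μ l)) ≤
      spinPart k μ (fun l => b ^ 2 * p l) + b ^ 2 / (2 * (n + 1)) := by
    have hl : spinPart n (gm n) (fun l => b ^ 2 * p (gJ n k μ l)) =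
        ∫ z, cascade (gm n) (fun l => b ^ 2 * p (gJ n k μ l)) n lc (√(b ^ 2 * p 0) * z)
          ∂(gaussianReal 0 1) - b ^ 2 * p (gJ n k μ n) / 2 := by
      unfold spinPart
      simp only [gJ_zero hμ]
      rfl
    have hr : spinPart k μ (fun l => b ^ 2 * p l) =
        ∫ z, cascade μ (fun l => b ^ 2 * p l) k lc (√(b ^ 2 * p 0) * z)
          ∂(gaussianReal 0 1) - b ^ 2 * p k / 2 := rfl
    have hi1 := hL (gm n) (fun l => b ^ 2 * p (gJ n k μ l)) n (fun l a _ => grid_gm_pos a)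
    simp only [gJ_zero hμ] at hi1
    have hi2 := hL μ (fun l => b ^ 2 * p l) k (fun l a c => by
      have h1 := hμ.2.2 0 (Nat.zero_le k)
      rw [hμ.1] at h1
      exact h1.trans_le (grid_exp_mono hμ a (by omega)))
    have hkey : ∀ x, cascade (gm n) (fun l => b ^ 2 * p (gJ n k μ l)) n lc x ≤
        cascade μ (fun l => b ^ 2 * p l) k lc x + (b ^ 2 / (2 * (n + 1)) -
          (b ^ 2 * p k - b ^ 2 * p (gJ n k μ n)) / 2) := by
      intro x
      have h3 := hc x
      rw [h2 x] at h3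
      have h4 : b ^ 2 * (p k - p 0) / (2 * ((n : ℝ) + 1)) ≤ b ^ 2 / (2 * (n + 1)) := by
        refine div_le_div_of_nonneg_right ?_ (by positivity)
        refine mul_le_of_le_one_right (sq_nonneg b) ?_
        linarith [hp0 0 (Nat.zero_le k)]
      linarith
    have hint := integral_mono hi1 (hi2.add (integrable_const
      (b ^ 2 / (2 * (n + 1)) - (b ^ 2 * p k - b ^ 2 * p (gJ n k μ n)) / 2)))
      (fun z => hkey (√(b ^ 2 * p 0) * z))
    rw [integral_add' hi2 (integrable_const _)] at hint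
    simp only [integral_const, probReal_univ, one_smul] at hint
    rw [hl, hr]
    linarith
  unfold SKpar
  have h5 : b ^ 2 / 4 * (1 + ∑ l ∈ Finset.range (n + 1), (gm n (l + 1) - gm n l) *
      p (gJ n k μ l) ^ 2) ≤ b ^ 2 / 4 * (1 + ∑ l ∈ Finset.range (k + 1), (μ (l + 1) - μ l) *
      p l ^ 2) := mul_le_mul_of_nonneg_left (by linarith) (by positivity)
  linarith

/-- Every path is rounded to the uniform grid of exponents. -/
theorem grid {b : ℝ} (hb : 0 < b) {k : ℕ} {μ p : ℕ → ℝ} (hμ : Exponents k μ) (hp : Path k p)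
    (hp1 : p k ≤ 1) (n : ℕ) : ∃ q : ℕ → ℝ, Path n q ∧ q n ≤ 1 ∧
      SKpar b n (gm n) q ≤ SKpar b k μ p + b ^ 2 / (n + 1) := by
  obtain ⟨q, h1, h2, h3⟩ := grid_path b n hμ hp hp1
  refine ⟨q, h1, h2, h3.trans ?_⟩
  have hn : (0 : ℝ) < (n : ℝ) + 1 := by positivity
  have h4 : b ^ 2 / (2 * ((n : ℝ) + 1)) ≤ b ^ 2 / (n + 1) :=
    div_le_div_of_nonneg_left (sq_nonneg b) hn (by linarith)
  linarith

/-- The competitor on the uniform grid. -/
theorem grid_bpath {b : ℝ} (hb : 0 < b) (n : ℕ) {k : ℕ} {μ p : ℕ → ℝ} (hμ : Exponents k μ)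
    (hp : Path k p) (hp1 : p k ≤ 1) : ∃ r : ℕ → ℝ, BPath b n r ∧
      SKr b n (gm n) r ≤ SKpar b k μ p + 2 * b ^ 2 / (n + 1) := by
  obtain ⟨q, hq, hq1, h1⟩ := grid_path b n hμ hp hp1
  obtain ⟨r, hr, h2⟩ := zero_start hb (gm_exponents n) hq hq1
  refine ⟨r, hr, h2.trans ?_⟩
  have h3 : gm n 1 = 1 / (n + 1) := by simp [gm]
  have hn : (0 : ℝ) < (n : ℝ) + 1 := by positivity
  rw [h3]
  have h4 : b ^ 2 / (2 * ((n : ℝ) + 1)) + 1 / (n + 1) * b ^ 2 ≤ 2 * b ^ 2 / (n + 1) := by
    rw [div_add' _ _ _ (by positivity), div_le_div_iff₀ (by positivity) (by positivity)]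
    field_simp
    nlinarith [sq_nonneg b]
  linarith

end Vale.Agent.P146.Pw2
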