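import Vale.Agent.P146.Pw2.T1Defs

/-!
# P146, polynomial lower bound, Parisi side: the classes `AKs`, `AK`
-/

set_option linter.all false

open MeasureTheory ProbabilityTheory Filter Topology Set

namespace Vale.Agent.P146.Pw2

open Vale.Agent.P157.Par
open Vale.Agent.P146.Gap

theorem aks_lc : AKs 0 lc := by
  refine ⟨?_, fun x => ?_, ?_⟩
  · rw [mul_zero, Real.exp_zero, mul_one]
    exact adm_lc
  · rw [adm_lc_it2, adm_lc_it4]
    have h1 := adm_tanh_sq x
    have h2 : |6 * Real.tanh x ^ 2 - 2| ≤ 4 := by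
      rw [abs_le]
      constructor <;> nlinarith [sq_nonneg (Real.tanh x)]
    simp only [abs_mul, abs_of_pos h1, mul_zero, Real.exp_zero, mul_one]
    have h3 : (1 - Real.tanh x ^ 2) * |6 * Real.tanh x ^ 2 - 2| ≤ (1 - Real.tanh x ^ 2) * 4 :=
      mul_le_mul_of_nonneg_left h2 h1.le
    linarith
  · rw [adm_lc_it2]
    simp

/-- The fourth derivative along one step. -/
theorem aks_unif {s v g : ℝ} {F : ℝ → ℝ} (h : AKs s F) (hg : 0 < g) (hg1 : g ≤ 1) (hv : 0 < v) :
    ∀ τ ∈ Icc 0 v, ∀ x, |fj g F 4 τ x| ≤ 12 * Real.exp (4 * (s + τ)) * fj g F 2 τ x := by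
  have key : ∀ σ : ℝ, σ = 1 ∨ σ = -1 → ∀ τ ∈ Icc 0 v, ∀ x,
      σ * fj g F 4 τ x ≤ 12 * Real.exp (4 * (s + τ)) * fj g F 2 τ x := by
    intro σ hσ
    refine adm_flow (j := 3) (κ := 4) (σ := σ) (Λ := 12 * Real.exp (4 * (s + v)))
      (E := fun τ x => 3 * fj g F 3 τ x ^ 2) (lam := fun τ => 12 * Real.exp (4 * (s + τ)))
      (lam' := fun τ => 48 * Real.exp (4 * (s + τ))) h.adm.smb hg hv (by norm_num)
      ?_ ?_ ?_ ?_ ?_
    · intro τ
      have h1 : HasDerivAt (fun τ : ℝ => 4 * (s + τ)) 4 τ := by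
        simpa using ((hasDerivAt_id τ).const_add s).const_mul 4
      refine (h1.exp.const_mul 12).congr_deriv ?_
      ring
    · intro τ hτ
      rw [abs_of_nonneg (by positivity)]
      refine mul_le_mul_of_nonneg_left (Real.exp_le_exp.2 ?_) (by norm_num)
      linarith [hτ.2]
    · intro τ hτ x
      refine (fj_s4 h.adm.smb hg hτ.1 x).congr_deriv ?_
      ring
    · intro τ hτ x
      obtain ⟨a, ha⟩ : ∃ a : ℝ, a = fj g F 2 τ x := ⟨_, rfl⟩
      obtain ⟨c, hc⟩ : ∃ c : ℝ, c = fj g F 3 τ x := ⟨_, rfl⟩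
      obtain ⟨e, he⟩ : ∃ e : ℝ, e = Real.exp (4 * (s + τ)) := ⟨_, rfl⟩
      have he0 : 0 < e := he ▸ Real.exp_pos _
      have h1 : 0 < a := ha ▸ adm_fj2_pos h.adm hg hg1 τ x
      have h2 : a + fj g F 1 τ x ^ 2 ≤ 1 := ha ▸ adm_fj2_le h.adm hg hg1 τ x
      have h4 : a ≤ 1 := by linarith [sq_nonneg (fj g F 1 τ x)]
      have h5 : c ^ 2 ≤ 4 * e * a := by
        have h6 := adm_r3_unif h.adm hg hg1 hv τ ⟨hτ.1.le, hτ.2.le⟩ x
        rw [← hc, ← ha] at h6
        have h7 : c ^ 2 ≤ (2 * Real.exp (2 * s) * Real.exp (2 * g * τ) * a) ^ 2 :=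
          sq_le_sq' (by linarith [(abs_le.1 h6).1]) (abs_le.1 h6).2
        have h8 : (2 * Real.exp (2 * s) * Real.exp (2 * g * τ) * a) ^ 2 =
            4 * Real.exp (4 * s + 4 * (g * τ)) * (a * a) := by
          have e1 : Real.exp (4 * s + 4 * (g * τ)) =
              (Real.exp (2 * s) * Real.exp (2 * g * τ)) ^ 2 := by
            rw [← Real.exp_add, ← Real.exp_nat_mul]
            congr 1
            push_cast
            ring
          rw [e1]
          ring
        have h9 : Real.exp (4 * s + 4 * (g * τ)) ≤ e := by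
          rw [he]
          refine Real.exp_le_exp.2 ?_
          have := mul_le_of_le_one_left hτ.1.le hg1
          linarith
        have h10 : a * a ≤ a := mul_le_of_le_one_left h1.le h4
        rw [h8] at h7
        calc c ^ 2 ≤ 4 * Real.exp (4 * s + 4 * (g * τ)) * (a * a) := h7
          _ ≤ 4 * e * a := mul_le_mul (by linarith) h10 (by positivity) (by positivity)
      rw [← ha, ← hc, ← he]
      have h8 : σ * (g * (3 * c ^ 2)) ≤ 12 * e * a := by
        have h9 : 0 ≤ g * (3 * c ^ 2) := by positivity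
        have h10 : σ * (g * (3 * c ^ 2)) ≤ g * (3 * c ^ 2) := by
          rcases hσ with rfl | rfl <;> linarith
        have h11 : g * (3 * c ^ 2) ≤ 1 * (3 * c ^ 2) :=
          mul_le_mul_of_nonneg_right hg1 (by positivity)
        linarith
      have h9 : 0 ≤ 36 * e * a * (1 - g * a) := by
        have : g * a ≤ 1 := mul_le_one₀ hg1 h1.le h4
        exact mul_nonneg (by positivity) (by linarith)
      have h10 : a * (48 * e - (4 - 1) * g * a * (12 * e)) =
          12 * e * a + 36 * e * a * (1 - g * a) := by ring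
      rw [h10]
      linarith
    · intro x
      rw [fj_zero hg.ne', fj_zero hg.ne']
      have h1 := abs_le.1 (h.r4 x)
      simp only [add_zero]
      rcases hσ with rfl | rfl
      · linarith [h1.2]
      · linarith [h1.1]
  intro τ hτ x
  have h1 := key 1 (Or.inl rfl) τ hτ x
  have h2 := key (-1) (Or.inr rfl) τ hτ x
  rw [abs_le]
  constructor <;> linarith

/-- The second derivative at the origin does not decrease too fast. -/
theorem low0_flow {C v g : ℝ} {F k K : ℝ → ℝ} (h : Adm C F) (hg : 0 < g) (hg1 : g ≤ 1)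
    (hv : 0 ≤ v) (hK : ∀ τ ∈ Icc 0 v, HasDerivAt K (k τ) τ)
    (h4 : ∀ τ ∈ Icc 0 v, |fj g F 4 τ 0| ≤ 2 * k τ * fj g F 2 τ 0) :
    Real.exp (K 0) * iteratedDeriv 2 F 0 ≤
      Real.exp (K v) * iteratedDeriv 2 (gstep g v F) 0 := by
  have hmono : MonotoneOn (fun τ => Real.exp (K τ) * fj g F 2 τ 0) (Icc 0 v) := by
    refine monotoneOn_of_hasDerivWithinAt_nonneg (f' := fun τ => Real.exp (K τ) * k τ *
      fj g F 2 τ 0 + Real.exp (K τ) * (1 / 2 * fj g F 4 τ 0 +
        g * (fj g F 2 τ 0 ^ 2 + fj g F 1 τ 0 * fj g F 3 τ 0))) (convex_Icc 0 v) ?_ ?_ ?_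
    · refine ContinuousOn.mul ?_ ?_
      · exact fun τ hτ => (Real.continuous_exp.continuousAt.comp
          (hK τ hτ).continuousAt).continuousWithinAt
      · have h1 := fj_cont h.smb hg 2
        have h2 : Continuous fun τ : ℝ => ((τ, (0 : ℝ)) : ℝ × ℝ) := by fun_prop
        exact (h1.comp h2).continuousOn
    · intro τ hτ
      rw [interior_Icc] at hτ ⊢
      exact (((hK τ ⟨hτ.1.le, hτ.2.le⟩).exp).mul (fj_s2 h.smb hg hτ.1 0)).hasDerivWithinAt
    · intro τ hτ
      rw [interior_Icc] at hτ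
      have hτ' : τ ∈ Icc 0 v := ⟨hτ.1.le, hτ.2.le⟩
      have h1 : fj g F 1 τ 0 = 0 := GoodX.good_odd (h.step hg hg1 hτ'.1).even (j := 1) (by decide)
      have h2 := (abs_le.1 (h4 τ hτ')).1
      rw [h1, zero_mul, add_zero]
      have h3 : 0 ≤ k τ * fj g F 2 τ 0 + (1 / 2 * fj g F 4 τ 0 + g * fj g F 2 τ 0 ^ 2) := by
        have := mul_nonneg hg.le (sq_nonneg (fj g F 2 τ 0))
        linarith
      have h5 := mul_nonneg (Real.exp_pos (K τ)).le h3
      linarith
  have h1 := hmono ⟨le_rfl, hv⟩ ⟨hv, le_rfl⟩ hv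
  simp only [] at h1
  rw [fj_zero hg.ne'] at h1
  exact h1

theorem AKs.step {s v g : ℝ} {F : ℝ → ℝ} (h : AKs s F) (hs : 0 ≤ s) (hg : 0 < g) (hg1 : g ≤ 1)
    (hv : 0 ≤ v) : AKs (s + v) (gstep g v F) := by
  rcases hv.eq_or_lt with rfl | hv'
  · rw [gstep_zero hg.ne', add_zero]
    exact h
  refine ⟨?_, fun x => aks_unif h hg hg1 hv' v ⟨hv, le_rfl⟩ x, ?_⟩
  · refine (h.adm.step hg hg1 hv).mono_C ?_
    rw [mul_assoc, ← Real.exp_add]
    refine mul_le_mul_of_nonneg_left (Real.exp_le_exp.2 ?_) (by norm_num)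
    have := mul_le_of_le_one_left hv hg1
    linarith
  · have h1 := low0_flow (K := fun τ => 3 / 2 * Real.exp (4 * (s + τ)))
      (k := fun τ => 6 * Real.exp (4 * (s + τ))) h.adm hg hg1 hv
      (fun τ _ => by
        have h1 : HasDerivAt (fun τ : ℝ => 4 * (s + τ)) 4 τ := by
          simpa using ((hasDerivAt_id τ).const_add s).const_mul 4
        refine (h1.exp.const_mul (3 / 2)).congr_deriv ?_
        ring)
      (fun τ hτ => by
        refine (aks_unif h hg hg1 hv' τ hτ 0).trans_eq ?_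
        ring)
    simp only [add_zero] at h1
    have h2 := mul_le_mul_of_nonneg_left h.low0 (Real.exp_pos (3 / 2 * Real.exp (4 * s))).le
    rw [← Real.exp_add] at h2
    have h3 := h2.trans h1
    have h4 := mul_le_mul_of_nonneg_left h3 (Real.exp_pos (-(3 / 2 * Real.exp (4 * (s + v))))).le
    rw [← mul_assoc, ← Real.exp_add, ← Real.exp_add, neg_add_cancel, Real.exp_zero,
      one_mul] at h4
    refine le_trans (Real.exp_le_exp.2 ?_) h4
    linarith

/-- `∂_s F''(0) = F''''(0)/2 + g F''(0)² ≥ -K F''(0) / 2` -/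
theorem bk_low0 {K g v : ℝ} {F : ℝ → ℝ} (h : BK K g v F) (hg : 0 < g) (hg1 : g ≤ 1)
    (hv : 0 ≤ v) : iteratedDeriv 2 F 0 ≤
      Real.exp (K * v / 2) * iteratedDeriv 2 (gstep g v F) 0 := by
  have h0 : Adm K F := by
    have := (h 0 ⟨le_rfl, hv⟩).adm
    rwa [gstep_zero hg.ne'] at this
  have h1 := low0_flow (K := fun τ => K * τ / 2) (k := fun _ => K / 2) h0 hg hg1 hv
    (fun τ _ => by
      have := ((hasDerivAt_id τ).const_mul K).div_const 2
      simpa using this)
    (fun τ hτ => by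
      refine ((h τ hτ).k4 0).trans_eq ?_
      unfold fj
      ring)
  simp only [mul_zero, zero_div, Real.exp_zero, one_mul] at h1
  exact h1

/-- lower bound of the first derivative -/
theorem low_of {C a : ℝ} {F : ℝ → ℝ} (h : Adm C F) (ha : 0 < a)
    (h0 : a ≤ iteratedDeriv 2 F 0) (x : ℝ) :
    a * Real.exp (-C) * min 1 |x| ≤ |iteratedDeriv 1 F x| := by
  have hC := h.C_nonneg
  have hd2 : ∀ x, HasDerivAt (iteratedDeriv 2 F) (iteratedDeriv 3 F x) x := fun x =>
    adm_hasD h.smb.smooth 2 x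
  have hd1 : ∀ x, HasDerivAt (iteratedDeriv 1 F) (iteratedDeriv 2 F x) x := fun x =>
    adm_hasD h.smb.smooth 1 x
  -- on the half line
  have hlow : ∀ x, 0 ≤ x → a * Real.exp (-(C * x)) ≤ iteratedDeriv 2 F x := by
    intro x hx
    have hmono : MonotoneOn (fun x => Real.exp (C * x) * iteratedDeriv 2 F x) (Icc 0 x) := by
      refine monotoneOn_of_hasDerivWithinAt_nonneg (f' := fun x => Real.exp (C * x) * C *
        iteratedDeriv 2 F x + Real.exp (C * x) * iteratedDeriv 3 F x) (convex_Icc 0 x) ?_ ?_ ?_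
      · exact ((Real.continuous_exp.comp (continuous_const.mul continuous_id)).mul
          (adm_cont h.smb.smooth 2)).continuousOn
      · intro y _
        have h1 : HasDerivAt (fun y : ℝ => C * y) C y := by
          simpa using (hasDerivAt_id y).const_mul C
        exact (h1.exp.mul (hd2 y)).hasDerivWithinAt
      · intro y _
        have h1 := (abs_le.1 (h.r3 y)).1
        have h2 : 0 ≤ Real.exp (C * y) * (C * iteratedDeriv 2 F y + iteratedDeriv 3 F y) :=
          mul_nonneg (Real.exp_pos _).le (by linarith)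
        linarith
    have h1 := hmono ⟨le_rfl, hx⟩ ⟨hx, le_rfl⟩ hx
    simp only [mul_zero, Real.exp_zero, one_mul] at h1
    have h2 : a ≤ Real.exp (C * x) * iteratedDeriv 2 F x := h0.trans h1
    have h3 := mul_le_mul_of_nonneg_left h2 (Real.exp_pos (-(C * x))).le
    rw [← mul_assoc, ← Real.exp_add, neg_add_cancel, Real.exp_zero, one_mul] at h3
    linarith
  have hz : iteratedDeriv 1 F 0 = 0 := GoodX.good_odd h.even (j := 1) (by decide)
  have hpos : ∀ x, 0 ≤ x → a * Real.exp (-C) * min 1 x ≤ iteratedDeriv 1 F x := by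
    intro x hx
    -- first on [0,1]
    have h1 : ∀ y, 0 ≤ y → y ≤ 1 → a * Real.exp (-C) * y ≤ iteratedDeriv 1 F y := by
      intro y hy hy1
      have hmono : MonotoneOn (fun y => iteratedDeriv 1 F y - a * Real.exp (-C) * y)
          (Icc 0 1) := by
        refine monotoneOn_of_hasDerivWithinAt_nonneg (f' := fun y => iteratedDeriv 2 F y -
          a * Real.exp (-C)) (convex_Icc 0 1) ?_ ?_ ?_
        · exact ((adm_cont h.smb.smooth 1).sub (continuous_const.mul continuous_id)).continuousOn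
        · intro y _
          have h1 : HasDerivAt (fun y : ℝ => a * Real.exp (-C) * y) (a * Real.exp (-C)) y := by
            simpa using (hasDerivAt_id y).const_mul (a * Real.exp (-C))
          exact ((hd1 y).sub h1).hasDerivWithinAt
        · intro y hy
          rw [interior_Icc] at hy
          have h1 := hlow y hy.1.le
          have h2 : Real.exp (-C) ≤ Real.exp (-(C * y)) := by
            refine Real.exp_le_exp.2 ?_
            have := mul_le_of_le_one_right hC hy.2.le
            linarith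
          have h3 := mul_le_mul_of_nonneg_left h2 ha.le
          linarith
      have h2 := hmono ⟨le_rfl, zero_le_one⟩ ⟨hy, hy1⟩ hy
      simp only [hz, mul_zero, sub_zero] at h2
      linarith
    rcases le_total x 1 with hx1 | hx1
    · rw [min_eq_right hx1]
      exact h1 x hx hx1
    · rw [min_eq_left hx1, mul_one]
      have hmono : MonotoneOn (iteratedDeriv 1 F) (Icc 1 x) := by
        refine monotoneOn_of_hasDerivWithinAt_nonneg (f' := iteratedDeriv 2 F) (convex_Icc 1 x)
          (adm_cont h.smb.smooth 1).continuousOn (fun y _ => (hd1 y).hasDerivWithinAt)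
          (fun y _ => (h.pos y).le)
      have h2 := hmono ⟨le_rfl, hx1⟩ ⟨hx1, le_rfl⟩ hx1
      have h3 := h1 1 zero_le_one le_rfl
      rw [mul_one] at h3
      exact h3.trans h2
  rcases le_total 0 x with hx | hx
  · rw [abs_of_nonneg hx]
    exact (hpos x hx).trans (le_abs_self _)
  · have h1 := hpos (-x) (by linarith)
    have h2 : iteratedDeriv 1 F (-x) = -iteratedDeriv 1 F x := by
      have h3 := iteratedDeriv_comp_neg 1 F x
      have h4 : (fun x => F (-x)) = F := funext h.even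
      rw [h4] at h3
      rw [h3]
      simp
    rw [abs_of_nonpos hx, ← abs_neg, ← h2]
    exact h1.trans (le_abs_self _)

/-- `F'' x ≥ F'' 0 exp (-C |x|)`, so `F' x ≥ c min(1, x)`; `|F'''| ≤ C min(1, |x|)`. -/
theorem AKs.ak (S : ℝ) : ∃ K : ℝ, 1 ≤ K ∧ ∀ (s : ℝ) (F : ℝ → ℝ), 0 ≤ s → s ≤ S → AKs s F →
    AK K F := by
  obtain ⟨C, hC⟩ : ∃ C : ℝ, C = 2 * Real.exp (2 * S) := ⟨_, rfl⟩
  obtain ⟨D, hD⟩ : ∃ D : ℝ, D = 12 * Real.exp (4 * S) := ⟨_, rfl⟩
  obtain ⟨a, ha⟩ : ∃ a : ℝ, a = Real.exp (-(3 / 2 * (Real.exp (4 * S) - 1))) := ⟨_, rfl⟩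
  have hC0 : 0 < C := hC ▸ by positivity
  have hD0 : 0 < D := hD ▸ by positivity
  have ha0 : 0 < a := ha ▸ Real.exp_pos _
  obtain ⟨L, hL⟩ : ∃ L : ℝ, L = 1 / (a * Real.exp (-C)) := ⟨_, rfl⟩
  have hL0 : 0 < L := hL ▸ by positivity
  refine ⟨1 + C + D + L + (C + D) * L + 1 / a, ?_, ?_⟩
  · have : 0 < 1 / a := by positivity
    have : 0 < (C + D) * L := by positivity
    linarith
  intro s F hs hsS h
  obtain ⟨K, hK⟩ : ∃ K : ℝ, K = 1 + C + D + L + (C + D) * L + 1 / a := ⟨_, rfl⟩
  rw [← hK]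
  have h1a : 0 < 1 / a := by positivity
  have h2a : 0 < (C + D) * L := by positivity
  have hCadm : Adm C F := by
    refine h.adm.mono_C ?_
    rw [hC]
    exact mul_le_mul_of_nonneg_left (Real.exp_le_exp.2 (by linarith)) (by norm_num)
  have hr4 : ∀ x, |iteratedDeriv 4 F x| ≤ D * iteratedDeriv 2 F x := by
    intro x
    refine (h.r4 x).trans (mul_le_mul_of_nonneg_right ?_ (h.adm.pos x).le)
    rw [hD]
    exact mul_le_mul_of_nonneg_left (Real.exp_le_exp.2 (by linarith)) (by norm_num)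
  have hlow0 : a ≤ iteratedDeriv 2 F 0 := by
    refine le_trans ?_ h.low0
    rw [ha]
    refine Real.exp_le_exp.2 ?_
    have : Real.exp (4 * s) ≤ Real.exp (4 * S) := Real.exp_le_exp.2 (by linarith)
    linarith
  have hlow : ∀ x, min 1 |x| ≤ L * |iteratedDeriv 1 F x| := by
    intro x
    have h1 := low_of hCadm ha0 hlow0 x
    have h2 : 0 < a * Real.exp (-C) := by positivity
    rw [hL, one_div, inv_mul_eq_div, le_div_iff₀ h2]
    linarith
  have h2le : ∀ x, iteratedDeriv 2 F x ≤ 1 := fun x => by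
    have := h.adm.le1 x
    nlinarith [sq_nonneg (iteratedDeriv 1 F x)]
  have h3z : iteratedDeriv 3 F 0 = 0 := GoodX.good_odd h.adm.even (j := 3) (by decide)
  have h3 : ∀ x, |iteratedDeriv 3 F x| ≤ (C + D) * min 1 |x| := by
    intro x
    have k1 : |iteratedDeriv 3 F x| ≤ C := (hCadm.r3 x).trans (by
      have := mul_le_mul_of_nonneg_left (h2le x) hC0.le
      linarith)
    have k2 : |iteratedDeriv 3 F x| ≤ D * |x| := by
      have := convex_univ.norm_image_sub_le_of_norm_hasDerivWithin_le (f := iteratedDeriv 3 F)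
        (f' := iteratedDeriv 4 F) (s := Set.univ) (C := D)
        (fun x _ => (adm_hasD h.adm.smb.smooth 3 x).hasDerivWithinAt) (fun x _ => by
          rw [Real.norm_eq_abs]
          refine (hr4 x).trans ?_
          have := mul_le_mul_of_nonneg_left (h2le x) hD0.le
          linarith) (mem_univ 0) (mem_univ x)
      rw [h3z, sub_zero, sub_zero, Real.norm_eq_abs, Real.norm_eq_abs] at this
      exact this
    rcases le_total 1 |x| with hx | hx
    · rw [min_eq_left hx]
      linarith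
    · rw [min_eq_right hx]
      have := mul_nonneg hC0.le (abs_nonneg x)
      linarith
  refine ⟨hCadm.mono_C (by linarith), fun x => ?_, fun x => ?_, fun x => ?_, ?_⟩
  · refine (h3 x).trans ?_
    have k1 := mul_le_mul_of_nonneg_left (hlow x) (by positivity : 0 ≤ C + D)
    have k2 : (C + D) * (L * |iteratedDeriv 1 F x|) ≤ K * |iteratedDeriv 1 F x| := by
      rw [← mul_assoc]
      exact mul_le_mul_of_nonneg_right (by linarith) (abs_nonneg _)
    exact k1.trans k2
  · exact (hr4 x).trans (mul_le_mul_of_nonneg_right (by linarith) (h.adm.pos x).le)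
  · exact (hlow x).trans (mul_le_mul_of_nonneg_right (by linarith) (abs_nonneg _))
  · have k1 : 1 / a * a = 1 := by field_simp
    have k2 : 1 / a * a ≤ K * iteratedDeriv 2 F 0 :=
      mul_le_mul (by linarith) hlow0 ha0.le (by linarith)
    linarith

end Vale.Agent.P146.Pw2
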