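import Vale.Agent.P146.Pw2.T1Blk0

/-!
# P146, polynomial lower bound, Parisi side: one block at a general point `y` (BLK, second part)
-/

set_option linter.all false

open MeasureTheory ProbabilityTheory Filter Topology Set

namespace Vale.Agent.P146.Pw2

open Vale.Agent.P157.Par
open Vale.Agent.P146.Gap

variable {C K g g' v : ℝ} {F : ℝ → ℝ}

/-- a function whose derivative is bounded by the derivative of another one -/
lemma blk_cmp {f f' u u' : ℝ → ℝ} (hv : 0 ≤ v) (hf : ContinuousOn f (Icc 0 v))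
    (hu : ContinuousOn u (Icc 0 v)) (hf' : ∀ τ ∈ Ioo 0 v, HasDerivAt f (f' τ) τ)
    (hu' : ∀ τ ∈ Ioo 0 v, HasDerivAt u (u' τ) τ) (h : ∀ τ ∈ Ioo 0 v, f' τ ≤ u' τ)
    {τ : ℝ} (hτ : τ ∈ Icc 0 v) : f τ - f 0 ≤ u τ - u 0 := by
  have hmono : MonotoneOn (fun τ => u τ - f τ) (Icc 0 v) := by
    refine monotoneOn_of_hasDerivWithinAt_nonneg (f' := fun τ => u' τ - f' τ) (convex_Icc 0 v)
      (hu.sub hf) ?_ ?_
    · intro τ hτ
      rw [interior_Icc] at hτ ⊢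
      exact ((hu' τ hτ).sub (hf' τ hτ)).hasDerivWithinAt
    · intro τ hτ
      rw [interior_Icc] at hτ
      exact sub_nonneg.2 (h τ hτ)
  have h1 := hmono ⟨le_rfl, hv⟩ hτ hτ.1
  simp only [] at h1
  linarith

lemma blk_lin {L B : ℝ} {G M D : ℝ → ℝ} (h : Sm L B G M D) {p q : ℝ → ℝ} (hp : Continuous p)
    {Kp : ℝ} (hKp : ∀ x, |p x| ≤ Kp) (hq : Continuous q) {Kq : ℝ} (hKq : ∀ x, |q x| ≤ Kq)
    (c₁ c₂ c₃ m s x : ℝ) : tlt m s G (fun y => c₁ * p y + (c₂ * q y + c₃)) x =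
      c₁ * tlt m s G p x + (c₂ * tlt m s G q x + c₃) := by
  have k1 : ∀ x, |c₁ * p x| ≤ |c₁| * Kp := fun x => by
    rw [abs_mul]; exact mul_le_mul_of_nonneg_left (hKp x) (abs_nonneg _)
  have k2 : ∀ x, |c₂ * q x| ≤ |c₂| * Kq := fun x => by
    rw [abs_mul]; exact mul_le_mul_of_nonneg_left (hKq x) (abs_nonneg _)
  have k3 : ∀ x, |c₂ * q x + c₃| ≤ |c₂| * Kq + |c₃| := fun x =>
    (abs_add_le _ _).trans (add_le_add (k2 x) le_rfl)
  rw [h.tlt_add (g := fun y => c₁ * p y) (g' := fun y => c₂ * q y + c₃)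
    (continuous_const.mul hp) k1 ((continuous_const.mul hq).add continuous_const) k3,
    h.tlt_add (g := fun y => c₂ * q y) (g' := fun _ => c₃) (continuous_const.mul hq) k2
      continuous_const (K' := |c₃|) (fun _ => le_rfl), tlt_const_mul, tlt_const_mul, h.tlt_const]

/-- `G'' ≤ 1` -/
lemma blk_le_one (h : Adm C F) (x : ℝ) : iteratedDeriv 2 F x ≤ 1 := by
  have := h.le1 x
  linarith [sq_nonneg (iteratedDeriv 1 F x)]

lemma blk_bM_le (h : Adm C F) (hg : 0 < g) (hg1 : g ≤ 1) (y : ℝ) {τ : ℝ} (hτ : τ ∈ Icc 0 v) :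
    bM g v F y τ ≤ 1 := by
  obtain ⟨L, B, hsm⟩ := first_sm h hg hτ
  have b2 := first_f_bc h hg v 1
  have hb := b2.mul b2
  rw [bM_eq]
  refine (le_abs_self _).trans (hsm.abs_tlt_le
    (g := fun x => first_f g v F 2 τ x * first_f g v F 2 τ x) (hb.slice τ) ?_ _ _ _)
  intro x
  obtain ⟨p1, -⟩ := first_d1_sq h hg hg1 hτ x
  have p2 : first_f g v F 2 τ x ≤ 1 := blk_le_one (first_adm h hg hg1 hτ) x
  rw [abs_of_nonneg (mul_self_nonneg _)]
  exact mul_le_one₀ p2 p1.le p2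

lemma blk_bM_nonneg (h : Adm C F) (hg : 0 < g) (hg1 : g ≤ 1) (y : ℝ) {τ : ℝ}
    (hτ : τ ∈ Icc 0 v) : 0 ≤ bM g v F y τ := by
  unfold bM tlt
  refine div_nonneg (integral_nonneg fun z => mul_nonneg (sq_nonneg _) (Real.exp_pos _).le)
    (integral_nonneg fun z => (Real.exp_pos _).le)

lemma blk_bM1_ge (h : Adm C F) (hg : 0 < g) (hg1 : g ≤ 1) (y : ℝ) {τ : ℝ} (hτ : τ ∈ Icc 0 v) :
    -(2 * g) * bM g v F y τ ≤ bM1 g v F y τ := by
  obtain ⟨L, B, hsm⟩ := first_sm h hg hτ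
  have b2 := first_f_bc h hg v 1
  have b3 := first_f_bc h hg v 2
  have hb := (b3.mul b3).add ((b2.mul (b2.mul b2)).smul (-(2 * g)))
  obtain ⟨K1, hK1⟩ := hb.2
  have hb2 := (b2.mul b2).smul (-(2 * g))
  obtain ⟨K2, hK2⟩ := hb2.2
  have e1 : bM1 g v F y τ = tlt g τ (gstep g (v - τ) F)
      (fun x => first_f g v F 3 τ x * first_f g v F 3 τ x
        + -(2 * g) * (first_f g v F 2 τ x * (first_f g v F 2 τ x * first_f g v F 2 τ x))) y := by
    unfold bM1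
    congr 1
    funext x
    change first_f g v F 3 τ x ^ 2 - 2 * g * first_f g v F 2 τ x ^ 3 = _
    ring
  rw [e1, bM_eq, ← tlt_const_mul]
  refine hsm.tlt_mono (g := fun x => -(2 * g) * (first_f g v F 2 τ x * first_f g v F 2 τ x))
    (hb2.slice τ) (hK2 τ) (hb.slice τ) (hK1 τ) (fun x => ?_) g τ y
  obtain ⟨p1, -⟩ := first_d1_sq h hg hg1 hτ x
  have p2 : first_f g v F 2 τ x ≤ 1 := blk_le_one (first_adm h hg hg1 hτ) x
  obtain ⟨a, ha⟩ : ∃ a, a = first_f g v F 2 τ x := ⟨_, rfl⟩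
  rw [← ha] at p1 p2 ⊢
  have p3 : 0 ≤ g * (a * a) * (1 - a) :=
    mul_nonneg (mul_nonneg hg.le (mul_self_nonneg a)) (by linarith)
  have p4 := mul_self_nonneg (first_f g v F 3 τ x)
  linarith

lemma blk_bM1_le (h : BK K g v F) (hF : Adm C F) (hg : 0 < g) (hg1 : g ≤ 1) {a : ℝ}
    (ha : 0 ≤ a) (y : ℝ) {τ : ℝ} (hτ : τ ∈ Icc 0 v) :
    bM1 g v F y τ ≤ K ^ 2 * bR g v F y τ - 3 * g * a * bM g v F y τ + g * a ^ 3 := by
  obtain ⟨L, B, hsm⟩ := first_sm hF hg hτ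
  have b1 := first_f_bc hF hg v 0
  have b2 := first_f_bc hF hg v 1
  have b3 := first_f_bc hF hg v 2
  have hb := (b3.mul b3).add ((b2.mul (b2.mul b2)).smul (-(2 * g)))
  obtain ⟨K1, hK1⟩ := hb.2
  have hb1 := b1.mul b1
  obtain ⟨Ka, hKa⟩ := hb1.2
  have hb2 := b2.mul b2
  obtain ⟨Kb, hKb⟩ := hb2.2
  have hb3 := (hb1.smul (K ^ 2)).add ((hb2.smul (-(3 * g * a))).add (first_Bc.const (g * a ^ 3)))
  obtain ⟨Kc, hKc⟩ := hb3.2
  have e1 : bM1 g v F y τ = tlt g τ (gstep g (v - τ) F)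
      (fun x => first_f g v F 3 τ x * first_f g v F 3 τ x
        + -(2 * g) * (first_f g v F 2 τ x * (first_f g v F 2 τ x * first_f g v F 2 τ x))) y := by
    unfold bM1
    congr 1
    funext x
    change first_f g v F 3 τ x ^ 2 - 2 * g * first_f g v F 2 τ x ^ 3 = _
    ring
  have e2 := blk_lin hsm (hb1.slice τ) (hKa τ) (hb2.slice τ) (hKb τ) (K ^ 2) (-(3 * g * a))
    (g * a ^ 3) g τ y
  have e3 : K ^ 2 * bR g v F y τ - 3 * g * a * bM g v F y τ + g * a ^ 3 =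
      tlt g τ (gstep g (v - τ) F) (fun x => K ^ 2 * (first_f g v F 1 τ x * first_f g v F 1 τ x)
        + (-(3 * g * a) * (first_f g v F 2 τ x * first_f g v F 2 τ x) + g * a ^ 3)) y := by
    rw [e2, bR_eq, bM_eq]
    ring
  rw [e1, e3]
  refine hsm.tlt_mono (hb.slice τ) (hK1 τ) (hb3.slice τ) (hKc τ) (fun x => ?_) g τ y
  have hAK := h (v - τ) ⟨by linarith [hτ.2], by linarith [hτ.1]⟩
  have q1 : |first_f g v F 3 τ x| ≤ K * |first_f g v F 1 τ x| := hAK.k3 x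
  obtain ⟨p1, -⟩ := first_d1_sq hF hg hg1 hτ x
  obtain ⟨u, hu⟩ : ∃ u, u = first_f g v F 2 τ x := ⟨_, rfl⟩
  obtain ⟨c, hc⟩ : ∃ c, c = first_f g v F 3 τ x := ⟨_, rfl⟩
  obtain ⟨d, hd⟩ : ∃ d, d = first_f g v F 1 τ x := ⟨_, rfl⟩
  rw [← hu] at p1
  rw [← hc, ← hd] at q1
  rw [← hu, ← hc, ← hd]
  have q2 : c * c ≤ K ^ 2 * (d * d) := by
    have q3 : |c| * |c| ≤ (K * |d|) * (K * |d|) :=
      mul_self_le_mul_self (abs_nonneg _) q1
    rw [abs_mul_abs_self] at q3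
    have q4 : (K * |d|) * (K * |d|) = K ^ 2 * (|d| * |d|) := by ring
    rw [q4, abs_mul_abs_self] at q3
    exact q3
  have q5 : 0 ≤ g * ((u - a) ^ 2 * (2 * u + a)) :=
    mul_nonneg hg.le (mul_nonneg (sq_nonneg _) (by linarith))
  have q6 : g * ((u - a) ^ 2 * (2 * u + a)) =
      2 * g * (u * (u * u)) - 3 * g * a * (u * u) + g * a ^ 3 := by ring
  rw [q6] at q5
  linarith

lemma blk_cont_lin (c : ℝ) (s : Set ℝ) : ContinuousOn (fun τ : ℝ => c * τ) s :=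
  (continuous_const.mul continuous_id).continuousOn

lemma blk_deriv_lin (c τ : ℝ) : HasDerivAt (fun τ : ℝ => c * τ) c τ := by
  simpa using (hasDerivAt_id τ).const_mul c

lemma blk_R_le (h : Adm C F) (hg : 0 < g) (hg1 : g ≤ 1) (hv : 0 ≤ v) (y : ℝ) {τ : ℝ}
    (hτ : τ ∈ Icc 0 v) : bR g v F y τ ≤ bR g v F y 0 + τ := by
  have h1 := blk_cmp (u := fun τ => 1 * τ) (u' := fun _ => 1) hv (bR_cont h hg hg1 y)
    (blk_cont_lin 1 _) (fun τ hτ => bR_deriv h hg hg1 y hτ) (fun τ _ => blk_deriv_lin 1 τ)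
    (fun τ hτ => blk_bM_le h hg hg1 y ⟨hτ.1.le, hτ.2.le⟩) hτ
  simp only [one_mul, sub_zero] at h1
  linarith

theorem blk_sq (h : Adm C F) (hg : 0 < g) (hg1 : g ≤ 1) (hv : 0 ≤ v) (y : ℝ) :
    tlt g v F (fun x => iteratedDeriv 1 F x ^ 2) y ≤ iteratedDeriv 1 (gstep g v F) y ^ 2 + v := by
  have h1 := blk_R_le h hg hg1 hv y ⟨hv, le_rfl⟩
  rw [bR_last hg.ne', bR_zero] at h1
  exact h1

lemma blk_adm (h : BK K g v F) (hg : 0 < g) (hv : 0 ≤ v) : Adm K F := by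
  have := (h 0 ⟨le_rfl, hv⟩).adm
  rwa [gstep_zero hg.ne'] at this

/-- `ρ(τ) ≥ exp(-2 g τ) ρ(0)` -/
lemma blk_M_ge (h : Adm C F) (hg : 0 < g) (hg1 : g ≤ 1) (hv : 0 ≤ v) (y : ℝ) {τ : ℝ}
    (hτ : τ ∈ Icc 0 v) : Real.exp (-2 * g * τ) * bM g v F y 0 ≤ bM g v F y τ := by
  have hd : ∀ c t : ℝ, HasDerivAt (fun τ : ℝ => Real.exp (c * τ)) (Real.exp (c * t) * c) t :=
    fun c t => (blk_deriv_lin c t).exp
  have h1 := blk_cmp (f := fun _ => 0) (f' := fun _ => 0)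
    (u := fun τ => Real.exp (2 * g * τ) * bM g v F y τ)
    (u' := fun τ => Real.exp (2 * g * τ) * (2 * g) * bM g v F y τ +
      Real.exp (2 * g * τ) * bM1 g v F y τ) hv continuousOn_const
    (((Real.continuous_exp.comp (continuous_const.mul continuous_id)).continuousOn).mul
      (bM_cont h hg hg1 y)) (fun τ _ => hasDerivAt_const τ 0)
    (fun τ hτ => (hd (2 * g) τ).mul (bM_deriv h hg hg1 y hτ))
    (fun τ hτ => by
      have h2 := blk_bM1_ge h hg hg1 y ⟨hτ.1.le, hτ.2.le⟩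
      have h3 : 0 ≤ Real.exp (2 * g * τ) * (2 * g * bM g v F y τ + bM1 g v F y τ) :=
        mul_nonneg (Real.exp_pos _).le (by linarith)
      linarith) hτ
  simp only [sub_self, mul_zero, Real.exp_zero, one_mul] at h1
  have h2 : bM g v F y 0 ≤ Real.exp (2 * g * τ) * bM g v F y τ := by linarith
  have h3 := mul_le_mul_of_nonneg_left h2 (Real.exp_pos (-2 * g * τ)).le
  rw [← mul_assoc, ← Real.exp_add] at h3
  have e : -2 * g * τ + 2 * g * τ = 0 := by ring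
  rw [e, Real.exp_zero, one_mul] at h3
  exact h3

theorem blk_M_low (h : BK K g v F) (hg : 0 < g) (hg1 : g ≤ 1) (hv : 0 ≤ v) (y : ℝ) :
    Real.exp (-2 * v) * iteratedDeriv 2 (gstep g v F) y ^ 2 ≤
      tlt g v F (fun x => iteratedDeriv 2 F x ^ 2) y := by
  have hF := blk_adm h hg hv
  have h1 := blk_M_ge hF hg hg1 hv y ⟨hv, le_rfl⟩
  rw [bM_last hg.ne', bM_zero] at h1
  refine le_trans (mul_le_mul_of_nonneg_right (Real.exp_le_exp.2 ?_) (sq_nonneg _)) h1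
  have := mul_le_of_le_one_left hv hg1
  linarith

theorem blk_R_low (h : BK K g v F) (hg : 0 < g) (hg1 : g ≤ 1) (hv : 0 ≤ v) (y : ℝ) :
    iteratedDeriv 1 (gstep g v F) y ^ 2 +
      v * Real.exp (-2 * g * v) * iteratedDeriv 2 (gstep g v F) y ^ 2 ≤
      tlt g v F (fun x => iteratedDeriv 1 F x ^ 2) y := by
  have hF := blk_adm h hg hv
  have h1 := blk_cmp (f := fun τ => Real.exp (-2 * g * v) * bM g v F y 0 * τ)
    (f' := fun _ => Real.exp (-2 * g * v) * bM g v F y 0) hv (blk_cont_lin _ _)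
    (bR_cont hF hg hg1 y) (fun τ _ => blk_deriv_lin _ τ) (fun τ hτ => bR_deriv hF hg hg1 y hτ)
    (fun τ hτ => by
      refine le_trans (mul_le_mul_of_nonneg_right (Real.exp_le_exp.2 ?_)
        (blk_bM_nonneg hF hg hg1 y ⟨le_rfl, hv⟩)) (blk_M_ge hF hg hg1 hv y ⟨hτ.1.le, hτ.2.le⟩)
      have := mul_le_mul_of_nonneg_left hτ.2.le hg.le
      linarith) (τ := v) ⟨hv, le_rfl⟩
  simp only [mul_zero, sub_zero] at h1
  rw [bR_last hg.ne', bR_zero, bM_zero] at h1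
  linarith

lemma blk_M_le (h : BK K g v F) (hK : 0 ≤ K) (hg : 0 < g) (hg1 : g ≤ 1) (hv : 0 ≤ v) {a : ℝ}
    (ha : 0 ≤ a) (y : ℝ) {τ : ℝ} (hτ : τ ∈ Icc 0 v) : bM g v F y τ ≤ bM g v F y 0 +
        K ^ 2 * (bR g v F y 0 * τ + τ ^ 2 / 2) -
        g * τ * (3 * a * (1 - 2 * v) * bM g v F y 0 - a ^ 3) := by
  have hF := blk_adm h hg hv
  have hM0 := blk_bM_nonneg hF hg hg1 y (τ := 0) ⟨le_rfl, hv⟩
  have h1 := blk_cmp (u := fun τ => K ^ 2 * (bR g v F y 0 * τ + τ ^ 2 / 2) -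
      g * τ * (3 * a * (1 - 2 * v) * bM g v F y 0 - a ^ 3))
    (u' := fun τ => K ^ 2 * (bR g v F y 0 + τ) -
      g * (3 * a * (1 - 2 * v) * bM g v F y 0 - a ^ 3)) hv (bM_cont hF hg hg1 y)
    (by fun_prop) (fun τ hτ => bM_deriv hF hg hg1 y hτ)
    (fun τ _ => by
      have d1 := blk_deriv_lin (bR g v F y 0) τ
      have d2 : HasDerivAt (fun τ : ℝ => τ ^ 2 / 2) τ τ := by
        have := (hasDerivAt_pow 2 τ).div_const 2
        refine this.congr_deriv ?_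
        simp
      have d3 := ((blk_deriv_lin g τ).mul_const (3 * a * (1 - 2 * v) * bM g v F y 0 - a ^ 3))
      exact ((d1.add d2).const_mul (K ^ 2)).sub d3)
    (fun t ht => by
      have ht' : t ∈ Icc 0 v := ⟨ht.1.le, ht.2.le⟩
      have k1 := blk_bM1_le h hF hg hg1 ha y ht'
      have k2 := mul_le_mul_of_nonneg_left (blk_R_le hF hg hg1 hv y ht') (sq_nonneg K)
      have k3 := blk_M_ge hF hg hg1 hv y ht'
      have k4 : (1 - 2 * v) ≤ Real.exp (-2 * g * t) := by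
        have e1 := Real.add_one_le_exp (-2 * g * t)
        have e2 := mul_le_of_le_one_left ht'.1 hg1
        have e3 := ht'.2
        linarith
      have k5 := (mul_le_mul_of_nonneg_right k4 hM0).trans k3
      have k6 := mul_le_mul_of_nonneg_left k5 (by positivity : 0 ≤ 3 * g * a)
      linarith) hτ
  simp only [mul_zero, zero_mul, sub_zero, add_zero, ne_eq, OfNat.ofNat_ne_zero,
    not_false_eq_true, zero_pow, zero_div] at h1
  linarith

theorem blk_M_up (h : BK K g v F) (hK : 0 ≤ K) (hg : 0 < g) (hg1 : g ≤ 1) (hv : 0 ≤ v) {a : ℝ}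
    (ha : 0 ≤ a) (y : ℝ) : tlt g v F (fun x => iteratedDeriv 2 F x ^ 2) y ≤
      iteratedDeriv 2 (gstep g v F) y ^ 2 +
        K ^ 2 * (iteratedDeriv 1 (gstep g v F) y ^ 2 * v + v ^ 2 / 2) -
        g * v * (3 * a * (1 - 2 * v) * iteratedDeriv 2 (gstep g v F) y ^ 2 - a ^ 3) := by
  have h1 := blk_M_le h hK hg hg1 hv ha y (τ := v) ⟨hv, le_rfl⟩
  rw [bM_last hg.ne', bM_zero, bR_zero] at h1
  exact h1

theorem blk_R_up (h : BK K g v F) (hK : 0 ≤ K) (hg : 0 < g) (hg1 : g ≤ 1) (hv : 0 ≤ v) {a : ℝ}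
    (ha : 0 ≤ a) (y : ℝ) : tlt g v F (fun x => iteratedDeriv 1 F x ^ 2) y ≤
      iteratedDeriv 1 (gstep g v F) y ^ 2 + v * iteratedDeriv 2 (gstep g v F) y ^ 2 +
        K ^ 2 * (iteratedDeriv 1 (gstep g v F) y ^ 2 * v ^ 2 / 2 + v ^ 3 / 6) -
        g * v ^ 2 / 2 * (3 * a * (1 - 2 * v) * iteratedDeriv 2 (gstep g v F) y ^ 2 - a ^ 3) := by
  have hF := blk_adm h hg hv
  obtain ⟨A, hA⟩ : ∃ A, A = 3 * a * (1 - 2 * v) * bM g v F y 0 - a ^ 3 := ⟨_, rfl⟩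
  have h1 := blk_cmp (u := fun τ => bM g v F y 0 * τ + K ^ 2 * (bR g v F y 0 * (τ ^ 2 / 2) +
      τ ^ 3 / 6) - g * A * (τ ^ 2 / 2))
    (u' := fun τ => bM g v F y 0 + K ^ 2 * (bR g v F y 0 * τ + τ ^ 2 / 2) - g * A * τ) hv
    (bR_cont hF hg hg1 y) (by fun_prop) (fun τ hτ => bR_deriv hF hg hg1 y hτ)
    (fun τ _ => by
      have d1 := blk_deriv_lin (bM g v F y 0) τ
      have d2 : HasDerivAt (fun τ : ℝ => τ ^ 2 / 2) τ τ := by
        have := (hasDerivAt_pow 2 τ).div_const 2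
        refine this.congr_deriv ?_
        simp
      have d3 : HasDerivAt (fun τ : ℝ => τ ^ 3 / 6) (τ ^ 2 / 2) τ := by
        have := (hasDerivAt_pow 3 τ).div_const 6
        refine this.congr_deriv ?_
        simp only [Nat.cast_ofNat, Nat.add_one_sub_one]
        ring
      exact (d1.add (((d2.const_mul (bR g v F y 0)).add d3).const_mul (K ^ 2))).sub
        (d2.const_mul (g * A)))
    (fun t ht => by
      have k1 := blk_M_le h hK hg hg1 hv ha y (τ := t) ⟨ht.1.le, ht.2.le⟩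
      rw [← hA] at k1
      linarith) (τ := v) ⟨hv, le_rfl⟩
  simp only [mul_zero, zero_mul, sub_zero, add_zero, ne_eq, OfNat.ofNat_ne_zero,
    not_false_eq_true, zero_pow, zero_div] at h1
  rw [hA, bR_last hg.ne', bM_zero, bR_zero] at h1
  linarith

end Vale.Agent.P146.Pw2
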