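import Vale.Agent.P146.Pw2.T1Defs

/-!
# P146, polynomial lower bound, Parisi side: one block at a general point `y` (BLK, first part)
-/

open MeasureTheory ProbabilityTheory Filter Topology Set

namespace Vale.Agent.P146.Pw2

open Vale.Agent.P157.Par
open Vale.Agent.P146.Gap

variable {C g v : ℝ} {F : ℝ → ℝ}

/-- The average of `G'²` at `τ`, starting at `y`. -/
noncomputable def bR (g v : ℝ) (F : ℝ → ℝ) (y τ : ℝ) : ℝ :=
  tlt g τ (gstep g (v - τ) F) (fun x => iteratedDeriv 1 (gstep g (v - τ) F) x ^ 2) y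

/-- The average of `G''²` at `τ`, starting at `y`. -/
noncomputable def bM (g v : ℝ) (F : ℝ → ℝ) (y τ : ℝ) : ℝ :=
  tlt g τ (gstep g (v - τ) F) (fun x => iteratedDeriv 2 (gstep g (v - τ) F) x ^ 2) y

/-- The derivative of `bM`. -/
noncomputable def bM1 (g v : ℝ) (F : ℝ → ℝ) (y τ : ℝ) : ℝ :=
  tlt g τ (gstep g (v - τ) F) (fun x => iteratedDeriv 3 (gstep g (v - τ) F) x ^ 2 -
    2 * g * iteratedDeriv 2 (gstep g (v - τ) F) x ^ 3) y

/-- the unnormalised tilted average -/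
noncomputable def blk_N (g s₁ : ℝ) (F : ℝ → ℝ) (p : ℝ → ℝ → ℝ) (y τ : ℝ) : ℝ :=
  ∫ z, p τ (y + √τ * z) * Real.exp (g * first_f g s₁ F 0 τ (y + √τ * z)) ∂(gaussianReal 0 1)

lemma blk_N_deriv {s₁ : ℝ} (h : Adm C F) (hg : 0 < g) {p p1 p2 ps : ℝ → ℝ → ℝ}
    (hp : first_P s₁ p p1 p2 ps) (y : ℝ) {τ : ℝ} (hτ : τ ∈ Ioo 0 s₁) :
    HasDerivAt (blk_N g s₁ F p y) (blk_N g s₁ F (fun s x => ps s x + 1 / 2 * p2 s x
      + g * first_f g s₁ F 1 s x * p1 s x) y τ) τ := by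
  have hf := first_fam h hg s₁
  have b1 := first_f_bc h hg s₁ 0
  have b2 := first_f_bc h hg s₁ 1
  have hI : Ioo 0 s₁ ⊆ Icc 0 s₁ := Ioo_subset_Icc_self
  -- multipliers
  have m1 : first_Bc (fun s x => p1 s x + g * (first_f g s₁ F 1 s x * p s x)) :=
    hp.b1.add ((b1.mul hp.b0).smul g)
  have m2 : first_Bc (fun s x => p2 s x + g * (2 * (first_f g s₁ F 1 s x * p1 s x)
      + first_f g s₁ F 2 s x * p s x + g * ((first_f g s₁ F 1 s x * first_f g s₁ F 1 s x)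
        * p s x))) :=
    hp.b2.add ((((b1.mul hp.b1).smul 2).add (b2.mul hp.b0)).add
      (((b1.mul b1).mul hp.b0).smul g) |>.smul g)
  have ms : first_Bc (fun s x => ps s x + (-g / 2) * ((first_f g s₁ F 2 s x +
      g * (first_f g s₁ F 1 s x * first_f g s₁ F 1 s x)) * p s x)) :=
    hp.bs.add (((b2.add ((b1.mul b1).smul g)).mul hp.b0).smul (-g / 2))
  have eb : ∀ {q : ℝ → ℝ → ℝ}, first_Bc q → sp2_EB (Icc 0 s₁)
      (fun s x => q s x * Real.exp (g * first_f g s₁ F 0 s x)) := by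
    rintro q ⟨-, B, hB⟩
    exact (sp2_EB_of_bdd fun s _ x => hB s x).mul (hf.sp2_ebd_exp g)
  have ce : ∀ {q : ℝ → ℝ → ℝ}, first_Bc q → ContinuousOn (fun r : ℝ × ℝ => q r.1 r.2 *
      Real.exp (g * first_f g s₁ F 0 r.1 r.2)) (Icc 0 s₁ ×ˢ univ) := fun hq =>
    hq.1.continuousOn.mul (hf.sp2_cexp g)
  have hder := sp2_deriv (a := 0) (b := s₁)
    (G := fun s x => p s x * Real.exp (g * first_f g s₁ F 0 s x))
    (G1 := fun s x => (p1 s x + g * (first_f g s₁ F 1 s x * p s x)) *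
      Real.exp (g * first_f g s₁ F 0 s x))
    (G2 := fun s x => (p2 s x + g * (2 * (first_f g s₁ F 1 s x * p1 s x)
      + first_f g s₁ F 2 s x * p s x + g * ((first_f g s₁ F 1 s x * first_f g s₁ F 1 s x)
        * p s x))) * Real.exp (g * first_f g s₁ F 0 s x))
    (Gs := fun s x => (ps s x + (-g / 2) * ((first_f g s₁ F 2 s x +
      g * (first_f g s₁ F 1 s x * first_f g s₁ F 1 s x)) * p s x)) *
      Real.exp (g * first_f g s₁ F 0 s x)) (v₀ := 0) (d := 1)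
    (fun s hs x => by
      refine ((hp.d1 s x).mul ((hf.d1 s hs x).const_mul g).exp).congr_deriv ?_
      ring)
    (fun s hs x => by
      refine (((hp.d2 s x).add (((hf.d2 s hs x).mul (hp.d1 s x)).const_mul g)).mul
        ((hf.d1 s hs x).const_mul g).exp).congr_deriv ?_
      simp only [Pi.add_apply, Pi.mul_apply]
      ring)
    (fun s hs x => by
      refine ((hp.ds s hs x).mul ((hf.ds s hs x).const_mul g).exp).congr_deriv ?_
      ring)
    (ce hp.b0) (ce m1) (ce m2) ((ce ms).mono (prod_mono hI subset_rfl))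
    (eb hp.b0) (eb m1) (eb m2) ((eb ms).mono hI)
    (fun s hs => by linarith [hs.1]) hτ y
  simp only [zero_add, mul_one] at hder
  unfold blk_N
  refine hder.congr_deriv ?_
  refine integral_congr_ae (Eventually.of_forall fun z => ?_)
  simp only []
  ring

lemma blk_N_pos {s₁ : ℝ} (h : Adm C F) (hg : 0 < g) (y : ℝ) {τ : ℝ} (hτ : τ ∈ Icc 0 s₁) :
    0 < blk_N g s₁ F (fun _ _ => 1) y τ := by
  obtain ⟨L, B, -, -, hsm⟩ := (first_fam h hg s₁).sp2_sm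
  have := (hsm τ hτ).int_exp_pos g τ y
  simpa [blk_N] using this

lemma blk_tlt_eq (s₁ : ℝ) (p : ℝ → ℝ → ℝ) (y τ : ℝ) :
    tlt g τ (gstep g (s₁ - τ) F) (p τ) y =
      blk_N g s₁ F p y τ / blk_N g s₁ F (fun _ _ => 1) y τ := by
  unfold tlt blk_N
  rw [first_f_zero]
  simp only [one_mul]

lemma blk_tlt_deriv {s₁ : ℝ} (h : Adm C F) (hg : 0 < g) {p p1 p2 ps : ℝ → ℝ → ℝ}
    (hp : first_P s₁ p p1 p2 ps) (y : ℝ) {τ : ℝ} (hτ : τ ∈ Ioo 0 s₁) :
    HasDerivAt (fun τ => tlt g τ (gstep g (s₁ - τ) F) (p τ) y)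
      (tlt g τ (gstep g (s₁ - τ) F) (fun x => ps τ x + 1 / 2 * p2 τ x
        + g * first_f g s₁ F 1 τ x * p1 τ x) y) τ := by
  have h1 := blk_N_deriv h hg hp y hτ
  have h2 := blk_N_deriv h hg (first_P.const s₁ 1) y hτ
  have h3 := blk_N_pos h hg y (Ioo_subset_Icc_self hτ)
  have h4 : blk_N g s₁ F (fun s x => (0 : ℝ) + 1 / 2 * 0 + g * first_f g s₁ F 1 s x * 0) y τ
      = 0 := by
    unfold blk_N
    simp
  rw [h4] at h2
  have h5 := h1.div h2 h3.ne'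
  have e : (fun τ => tlt g τ (gstep g (s₁ - τ) F) (p τ) y) =
      blk_N g s₁ F p y / blk_N g s₁ F (fun _ _ => 1) y := by
    funext τ
    exact blk_tlt_eq s₁ p y τ
  rw [e]
  refine h5.congr_deriv ?_
  rw [blk_tlt_eq s₁ (fun s x => ps s x + 1 / 2 * p2 s x + g * first_f g s₁ F 1 s x * p1 s x),
    mul_zero, sub_zero, sq, mul_div_mul_right _ _ h3.ne']

lemma blk_tlt_cont {s₁ : ℝ} (h : Adm C F) (hg : 0 < g) {p : ℝ → ℝ → ℝ} (hp : first_Bc p)
    (g' y : ℝ) :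
    ContinuousOn (fun τ => tlt g' τ (gstep g (s₁ - τ) F) (p τ) y) (Icc 0 s₁) := by
  obtain ⟨hc, B, hB⟩ := hp
  have h1 := (first_fam h hg s₁).tlt_cont hc.continuousOn (fun s _ x => hB s x) g' 0 1
  have h2 := h1.comp (f := fun s : ℝ => ((s, y) : ℝ × ℝ)) (s := Icc 0 s₁) (by fun_prop)
    (fun s hs => ⟨hs, mem_univ _⟩)
  simp only [Function.comp_def, zero_add, mul_one, first_f_zero] at h2
  exact h2

lemma bR_eq (g v : ℝ) (F : ℝ → ℝ) (y : ℝ) : bR g v F y =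
    fun τ => tlt g τ (gstep g (v - τ) F)
      (fun x => first_f g v F 1 τ x * first_f g v F 1 τ x) y := by
  funext τ
  unfold bR
  congr 1
  funext y
  rw [sq]
  rfl

lemma bM_eq (g v : ℝ) (F : ℝ → ℝ) (y : ℝ) : bM g v F y =
    fun τ => tlt g τ (gstep g (v - τ) F)
      (fun x => first_f g v F 2 τ x * first_f g v F 2 τ x) y := by
  funext τ
  unfold bM
  congr 1
  funext y
  rw [sq]
  rfl

theorem bR_cont (h : Adm C F) (hg : 0 < g) (_hg1 : g ≤ 1) (y : ℝ) :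
    ContinuousOn (bR g v F y) (Icc 0 v) := by
  have b1 := first_f_bc h hg v 0
  rw [bR_eq]
  exact blk_tlt_cont h hg (b1.mul b1) g y

theorem bM_cont (h : Adm C F) (hg : 0 < g) (_hg1 : g ≤ 1) (y : ℝ) :
    ContinuousOn (bM g v F y) (Icc 0 v) := by
  have b2 := first_f_bc h hg v 1
  rw [bM_eq]
  exact blk_tlt_cont h hg (b2.mul b2) g y

theorem bR_deriv (h : Adm C F) (hg : 0 < g) (_hg1 : g ≤ 1) (y : ℝ) {τ : ℝ} (hτ : τ ∈ Ioo 0 v) :
    HasDerivAt (bR g v F y) (bM g v F y τ) τ := by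
  have hp := (first_P1 h hg v).mul (first_P1 h hg v)
  rw [bR_eq]
  refine (blk_tlt_deriv h hg hp y hτ).congr_deriv ?_
  rw [bM_eq]
  congr 1
  funext y
  ring

theorem bM_deriv (h : Adm C F) (hg : 0 < g) (_hg1 : g ≤ 1) (y : ℝ) {τ : ℝ} (hτ : τ ∈ Ioo 0 v) :
    HasDerivAt (bM g v F y) (bM1 g v F y τ) τ := by
  have hp := (first_P2 h hg v).mul (first_P2 h hg v)
  rw [bM_eq]
  refine (blk_tlt_deriv h hg hp y hτ).congr_deriv ?_
  unfold bM1
  congr 1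
  funext y
  change _ = first_f g v F 3 τ y ^ 2 - 2 * g * first_f g v F 2 τ y ^ 3
  ring

theorem bR_zero (g v : ℝ) (F : ℝ → ℝ) (y : ℝ) :
    bR g v F y 0 = iteratedDeriv 1 (gstep g v F) y ^ 2 := by
  unfold bR
  rw [sp3_tlt_triv le_rfl, sub_zero]

theorem bM_zero (g v : ℝ) (F : ℝ → ℝ) (y : ℝ) :
    bM g v F y 0 = iteratedDeriv 2 (gstep g v F) y ^ 2 := by
  unfold bM
  rw [sp3_tlt_triv le_rfl, sub_zero]

theorem bR_last (hg : g ≠ 0) (v : ℝ) (F : ℝ → ℝ) (y : ℝ) :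
    bR g v F y v = tlt g v F (fun x => iteratedDeriv 1 F x ^ 2) y := by
  unfold bR
  rw [sub_self, gstep_zero hg]

theorem bM_last (hg : g ≠ 0) (v : ℝ) (F : ℝ → ℝ) (y : ℝ) :
    bM g v F y v = tlt g v F (fun x => iteratedDeriv 2 F x ^ 2) y := by
  unfold bM
  rw [sub_self, gstep_zero hg]

end Vale.Agent.P146.Pw2
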