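import Vale.Agent.P146.Gap.GapFinal
import Vale.Agent.P157.ParSp7

/-!
# P146, polynomial lower bound, Parisi side: definitions

`c = 1 / b²`, `r` a minimiser over `BPath b n` for the exponents `m`.
-/

open MeasureTheory ProbabilityTheory Filter Topology Set

namespace Vale.Agent.P146.Pw2

open Vale.Agent.P157.Par
open Vale.Agent.P146.Gap

/-- The function of the level `l`. -/
noncomputable def Fl (n : ℕ) (m r : ℕ → ℝ) (l : ℕ) : ℝ → ℝ :=
  cascade (fun i => m (l + i)) (fun i => r (l + i)) (n - l) lc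

/-- The nested average at the level `l`. -/
noncomputable def Ee (n : ℕ) (m r : ℕ → ℝ) (l : ℕ) (ψ : ℝ → ℝ) : ℝ := chn m r l (Fl n m r l) ψ

/-- `E (F_l'')²`. -/
noncomputable def Ml (n : ℕ) (m r : ℕ → ℝ) (l : ℕ) : ℝ :=
  Ee n m r l (fun x => iteratedDeriv 2 (Fl n m r l) x ^ 2)

/-- The functions of the recursion with the total variance `s` above. -/
structure AKs (s : ℝ) (F : ℝ → ℝ) : Prop where
  adm : Adm (2 * Real.exp (2 * s)) F
  r4 : ∀ x, |iteratedDeriv 4 F x| ≤ 12 * Real.exp (4 * s) * iteratedDeriv 2 F x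
  low0 : Real.exp (-(3 / 2 * (Real.exp (4 * s) - 1))) ≤ iteratedDeriv 2 F 0

/-- Consequences with one constant. -/
structure AK (K : ℝ) (F : ℝ → ℝ) : Prop where
  adm : Adm K F
  k3 : ∀ x, |iteratedDeriv 3 F x| ≤ K * |iteratedDeriv 1 F x|
  k4 : ∀ x, |iteratedDeriv 4 F x| ≤ K * iteratedDeriv 2 F x
  low : ∀ x, min 1 |x| ≤ K * |iteratedDeriv 1 F x|
  low0 : 1 ≤ K * iteratedDeriv 2 F 0

/-- A block all of whose functions are in the class. -/
def BK (K g v : ℝ) (F : ℝ → ℝ) : Prop := ∀ s ∈ Icc 0 v, AK K (gstep g s F)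

/-- `r` is a minimiser over the paths from `0` to at most `b²`. -/
def IsMin (b : ℝ) (n : ℕ) (m r : ℕ → ℝ) : Prop :=
  BPath b n r ∧ ∀ r', BPath b n r' → SKr b n m r ≤ SKr b n m r'

end Vale.Agent.P146.Pw2
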