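import Vale.Agent.P146.Pw2.T1Nest
import Vale.Agent.P146.Pw2.T1Adm
import Vale.Agent.P146.Pw2.T1Blk

/-!
# P146, polynomial lower bound, Parisi side: nested averages (part 2)
-/

open MeasureTheory ProbabilityTheory Filter Topology Set

set_option linter.unusedVariables false

namespace Vale.Agent.P146.Pw2

open Vale.Agent.P157.Par
open Vale.Agent.P146.Gap

variable {n : ℕ} {m r : ℕ → ℝ} {b : ℝ}

/-- (uses AKs) -/
theorem fl_aks (hm : Exponents n m) (hr : Path n r) {l : ℕ} (hl : l ≤ n) :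
    AKs (r n - r l) (Fl n m r l) := by
  induction hl using Nat.decreasingInduction with
  | self => rw [sub_self, fl_last]; exact aks_lc
  | of_succ l hl ih =>
    obtain ⟨g0, g1⟩ := sp7_exp_of hm l hl
    have h1 : 0 ≤ r n - r (l + 1) := sub_nonneg.2 (minb_mono hr.2 hl le_rfl)
    have h2 := ih.step h1 g0 g1 (sub_nonneg.2 (hr.2 l hl))
    rw [fl_succ hl]
    have e : r n - r (l + 1) + (r (l + 1) - r l) = r n - r l := by ring
    rwa [e] at h2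

/-- (uses AKs) -/
theorem fl_bk (b : ℝ) : ∃ K : ℝ, 1 ≤ K ∧ ∀ (n : ℕ) (m r : ℕ → ℝ), Exponents n m → BPath b n r →
    (∀ l ≤ n, AK K (Fl n m r l)) ∧
      ∀ l < n, BK K (m (l + 1)) (r (l + 1) - r l) (Fl n m r (l + 1)) := by
  obtain ⟨K, hK1, hK⟩ := AKs.ak (b ^ 2)
  refine ⟨K, hK1, fun n m r hm hr => ?_⟩
  obtain ⟨h0, hp, hb⟩ := hr
  have hpos : ∀ l ≤ n, 0 ≤ r l := fun l hl => by
    have := minb_mono hp.2 (Nat.zero_le l) hl
    rwa [h0] at this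
  constructor
  · intro l hl
    refine hK (r n - r l) _ (sub_nonneg.2 (minb_mono hp.2 hl le_rfl)) ?_ (fl_aks hm hp hl)
    linarith [hpos l hl]
  · intro l hl s hs
    obtain ⟨g0, g1⟩ := sp7_exp_of hm l hl
    have h1 : 0 ≤ r n - r (l + 1) := sub_nonneg.2 (minb_mono hp.2 hl le_rfl)
    refine hK (r n - r (l + 1) + s) _ (add_nonneg h1 hs.1) ?_
      ((fl_aks hm hp hl).step h1 g0 g1 hs.1)
    linarith [hpos l hl.le, hs.2]

/-- (from `blk_sq`) for any admissible function at the level `l` -/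
theorem chn_sq_le {C : ℝ} {F : ℝ → ℝ} (hF : Adm C F) (h0 : r 0 = 0) {l : ℕ}
    (hm0 : ∀ i < l, 0 < m (i + 1) ∧ m (i + 1) ≤ 1) (hr : ∀ i < l, r i ≤ r (i + 1)) :
    chn m r l F (fun x => iteratedDeriv 1 F x ^ 2) ≤ r l := by
  induction l generalizing F C with
  | zero =>
    rw [chn_zero_def, h0, Real.sqrt_zero]
    have h1 : iteratedDeriv 1 F 0 = 0 := (cint_odd_zero hF).1
    simp [h1]
  | succ l ih =>
    obtain ⟨g0, g1⟩ := hm0 l (Nat.lt_succ_self l)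
    have hv : 0 ≤ r (l + 1) - r l := sub_nonneg.2 (hr l (Nat.lt_succ_self l))
    have hm' : Sp7Exp m l := fun i hi => hm0 i (by omega)
    have hF' := hF.step g0 g1 hv
    have h1 := ih hF' hm' (fun i hi => hr i (by omega))
    rw [chn_succ_def]
    have h2 := sp7_chn_mono m r l hm' (adm_ec hF')
      (sp7_cb_tlt (adm_ec hF) (sp7_cb_sq (nest_cb1 hF)) (m (l + 1)) (r (l + 1) - r l))
      (sp7_cb_add (sp7_cb_sq (nest_cb1 hF')) (sp7_cb_const (r (l + 1) - r l)))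
      (fun x => blk_sq hF g0 g1 hv x)
    rw [sp7_chn_add m r l hm' (adm_ec hF') (sp7_cb_sq (nest_cb1 hF')) (sp7_cb_const _),
      sp7_chn_const m r l hm' (adm_ec hF')] at h2
    linarith

/-- `R_l ≤ r_l` -/
theorem spR_le (hm : Exponents n m) (hr : Path n r) (h0 : r 0 = 0) {l : ℕ} (hl : l ≤ n) :
    spR n m r l ≤ r l := by
  obtain ⟨C, hC⟩ := fl_good hm hr hl
  rw [spR_eq hm hr hl]
  exact chn_sq_le hC.adm h0 (fun i hi => sp7_exp_of hm i (by omega))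
    (fun i hi => hr.2 i (by omega))

/-- the functions of a block, without a good constant -/
theorem nest_bk (hm : Exponents n m) (hr : BPath b n r) {l : ℕ} (hl : l < n) :
    ∃ K, BK K (m (l + 1)) (r (l + 1) - r l) (Fl n m r (l + 1)) := by
  obtain ⟨K, -, hK⟩ := fl_bk b
  exact ⟨K, (hK n m r hm hr).2 l hl⟩

theorem Ml_low (hm : Exponents n m) (hr : BPath b n r) {l : ℕ} (hl : l < n) :
    Real.exp (-2 * (r (l + 1) - r l)) * Ml n m r l ≤ Ml n m r (l + 1) := by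
  obtain ⟨K, hK⟩ := nest_bk hm hr hl
  obtain ⟨g0, g1⟩ := sp7_exp_of hm l hl
  have hv : 0 ≤ r (l + 1) - r l := sub_nonneg.2 (hr.2.1.2 l hl)
  obtain ⟨C, hC⟩ := fl_good hm hr.2.1 hl.le
  obtain ⟨C', hC'⟩ := fl_good hm hr.2.1 (show l + 1 ≤ n from hl)
  unfold Ml
  rw [ee_succ hl, ← ee_smul]
  refine ee_mono hm hr.2.1 hl.le (nest_cb_smul _ (sp7_cb_sq (nest_cb2 hC.adm)))
    (sp7_cb_tlt (adm_ec hC'.adm) (sp7_cb_sq (nest_cb2 hC'.adm)) _ _) fun x => ?_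
  have h1 := blk_M_low hK g0 g1 hv x
  rwa [← fl_succ hl] at h1

/-- a linear combination -/
theorem nest_lin (hm : Exponents n m) (hr : Path n r) {l : ℕ} (hl : l ≤ n) (A B D : ℝ) :
    Sp7Cb (fun x => A * iteratedDeriv 1 (Fl n m r l) x ^ 2 +
      B * iteratedDeriv 2 (Fl n m r l) x ^ 2 + D) ∧
    Ee n m r l (fun x => A * iteratedDeriv 1 (Fl n m r l) x ^ 2 +
      B * iteratedDeriv 2 (Fl n m r l) x ^ 2 + D) = A * spR n m r l + B * Ml n m r l + D := by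
  obtain ⟨C, hC⟩ := fl_good hm hr hl
  have h1 := nest_cb_smul A (sp7_cb_sq (nest_cb1 hC.adm))
  have h2 := nest_cb_smul B (sp7_cb_sq (nest_cb2 hC.adm))
  have h3 := sp7_cb_add h1 h2
  refine ⟨sp7_cb_add h3 (sp7_cb_const D), ?_⟩
  rw [ee_add hm hr hl h3 (sp7_cb_const D), ee_add hm hr hl h1 h2, ee_smul, ee_smul,
    ee_const hm hr hl, spR_eq hm hr hl]
  rfl

/-- the constant `K` of `fl_bk` -/
theorem Ml_up {K : ℝ} (hK : 0 ≤ K) (hm : Exponents n m) (hr : BPath b n r) {l : ℕ} (hl : l < n)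
    (hB : BK K (m (l + 1)) (r (l + 1) - r l) (Fl n m r (l + 1))) {a : ℝ} (ha : 0 ≤ a) :
    Ml n m r (l + 1) ≤ Ml n m r l +
      K ^ 2 * (spR n m r l * (r (l + 1) - r l) + (r (l + 1) - r l) ^ 2 / 2) -
      m (l + 1) * (r (l + 1) - r l) * (3 * a * (1 - 2 * (r (l + 1) - r l)) * Ml n m r l - a ^ 3) := by
  obtain ⟨g0, g1⟩ := sp7_exp_of hm l hl
  set v := r (l + 1) - r l with hv'
  have hv : 0 ≤ v := sub_nonneg.2 (hr.2.1.2 l hl)
  obtain ⟨C', hC'⟩ := fl_good hm hr.2.1 (show l + 1 ≤ n from hl)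
  obtain ⟨h1, h2⟩ := nest_lin hm hr.2.1 hl.le (K ^ 2 * v)
    (1 - m (l + 1) * v * (3 * a * (1 - 2 * v))) (K ^ 2 * (v ^ 2 / 2) + m (l + 1) * v * a ^ 3)
  have h3 : Ml n m r (l + 1) ≤ Ee n m r l (fun x =>
      (K ^ 2 * v) * iteratedDeriv 1 (Fl n m r l) x ^ 2 +
      (1 - m (l + 1) * v * (3 * a * (1 - 2 * v))) * iteratedDeriv 2 (Fl n m r l) x ^ 2 +
        (K ^ 2 * (v ^ 2 / 2) + m (l + 1) * v * a ^ 3)) := by
    unfold Ml
    rw [ee_succ hl]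
    refine ee_mono hm hr.2.1 hl.le
      (sp7_cb_tlt (adm_ec hC'.adm) (sp7_cb_sq (nest_cb2 hC'.adm)) _ _) h1 fun x => ?_
    have h4 := blk_M_up hB hK g0 g1 hv ha x
    rw [hv', ← fl_succ hl, ← hv'] at h4
    linarith
  rw [h2] at h3
  linarith

theorem spR_up {K : ℝ} (hK : 0 ≤ K) (hm : Exponents n m) (hr : BPath b n r) {l : ℕ} (hl : l < n)
    (hB : BK K (m (l + 1)) (r (l + 1) - r l) (Fl n m r (l + 1))) {a : ℝ} (ha : 0 ≤ a) :
    spR n m r (l + 1) ≤ spR n m r l + (r (l + 1) - r l) * Ml n m r l +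
      K ^ 2 * (spR n m r l * (r (l + 1) - r l) ^ 2 / 2 + (r (l + 1) - r l) ^ 3 / 6) -
      m (l + 1) * (r (l + 1) - r l) ^ 2 / 2 *
        (3 * a * (1 - 2 * (r (l + 1) - r l)) * Ml n m r l - a ^ 3) := by
  obtain ⟨g0, g1⟩ := sp7_exp_of hm l hl
  set v := r (l + 1) - r l with hv'
  have hv : 0 ≤ v := sub_nonneg.2 (hr.2.1.2 l hl)
  obtain ⟨C', hC'⟩ := fl_good hm hr.2.1 (show l + 1 ≤ n from hl)
  obtain ⟨h1, h2⟩ := nest_lin hm hr.2.1 hl.le (1 + K ^ 2 * (v ^ 2 / 2))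
    (v - m (l + 1) * v ^ 2 / 2 * (3 * a * (1 - 2 * v)))
    (K ^ 2 * (v ^ 3 / 6) + m (l + 1) * v ^ 2 / 2 * a ^ 3)
  have h3 : spR n m r (l + 1) ≤ Ee n m r l (fun x =>
      (1 + K ^ 2 * (v ^ 2 / 2)) * iteratedDeriv 1 (Fl n m r l) x ^ 2 +
      (v - m (l + 1) * v ^ 2 / 2 * (3 * a * (1 - 2 * v))) * iteratedDeriv 2 (Fl n m r l) x ^ 2 +
        (K ^ 2 * (v ^ 3 / 6) + m (l + 1) * v ^ 2 / 2 * a ^ 3)) := by
    rw [spR_eq hm hr.2.1 (show l + 1 ≤ n from hl), ee_succ hl]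
    refine ee_mono hm hr.2.1 hl.le
      (sp7_cb_tlt (adm_ec hC'.adm) (sp7_cb_sq (nest_cb1 hC'.adm)) _ _) h1 fun x => ?_
    have h4 := blk_R_up hB hK g0 g1 hv ha x
    rw [hv', ← fl_succ hl, ← hv'] at h4
    linarith
  rw [h2] at h3
  linarith

end Vale.Agent.P146.Pw2
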