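import Vale.Agent.P146.Pw2.T1Defs

/-!
# P146 / Pw2 / STAT (P1): the minimiser is a fixed point of the overlap map
-/

open MeasureTheory ProbabilityTheory Filter Topology Set

namespace Vale.Agent.P146.Pw2

open Vale.Agent.P157.Par Vale.Agent.P146.Gap

/-- The overlap map sends paths in `[0,b²]` starting at `0` to such paths. -/
theorem stat_bpath {b : ℝ} {k : ℕ} {m r : ℕ → ℝ} (hm : Exponents k m) (hr : BPath b k r) :
    BPath b k (fun l => b ^ 2 * spR k m r l) := by
  have hb : 0 ≤ b ^ 2 := sq_nonneg b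
  refine ⟨?_, ⟨?_, fun l hl => ?_⟩, ?_⟩
  · simp only
    rw [spR_zero hm hr.2.1 hr.1, mul_zero]
  · exact mul_nonneg hb (spR_nonneg hm hr.2.1 (Nat.zero_le _))
  · exact mul_le_mul_of_nonneg_left (spR_mono hm hr.2.1 hl) hb
  · exact mul_le_of_le_one_right hb (spR_lt_one hm hr.2.1 le_rfl).le

/-- The value at the image of the overlap map. -/
theorem stat_gain {b : ℝ} (hb : 0 < b) {k : ℕ} {m r : ℕ → ℝ} (hm : Exponents k m)
    (hr : BPath b k r) :
    SKr b k m (fun l => b ^ 2 * spR k m r l) ≤ SKr b k m r -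
      (∑ l ∈ Finset.range (k + 1), (m (l + 1) - m l) * (b ^ 2 * spR k m r l - r l) ^ 2) /
        (4 * b ^ 2) := by
  have hr' := stat_bpath hm hr
  have ht := tangent_path hm hr.2.1 hr'.2.1
  unfold SKr
  have e : (∑ l ∈ Finset.range (k + 1), (m (l + 1) - m l) * (b ^ 2 * spR k m r l) ^ 2) /
      (4 * b ^ 2) - 1 / 2 * ∑ l ∈ Finset.range (k + 1),
        (m (l + 1) - m l) * spR k m r l * (b ^ 2 * spR k m r l - r l) =
      (∑ l ∈ Finset.range (k + 1), (m (l + 1) - m l) * r l ^ 2) / (4 * b ^ 2) -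
      (∑ l ∈ Finset.range (k + 1), (m (l + 1) - m l) * (b ^ 2 * spR k m r l - r l) ^ 2) /
        (4 * b ^ 2) := by
    rw [Finset.mul_sum, Finset.sum_div, Finset.sum_div, Finset.sum_div,
      ← Finset.sum_sub_distrib, ← Finset.sum_sub_distrib]
    refine Finset.sum_congr rfl fun l _ => ?_
    field_simp
    ring
  linarith

/-- **Stationarity**: at a minimiser all levels are fixed by the overlap map. -/
theorem stat_fix {b : ℝ} (hb : 0 < b) {k : ℕ} {m r : ℕ → ℝ} (hm : Exponents k m)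
    (hr : BPath b k r) (hmin : ∀ r', BPath b k r' → SKr b k m r ≤ SKr b k m r') :
    ∀ l ≤ k, r l = b ^ 2 * spR k m r l := by
  have h1 := stat_gain hb hm hr
  have h2 := hmin _ (stat_bpath hm hr)
  have hp : ∀ l ∈ Finset.range (k + 1), 0 ≤ (m (l + 1) - m l) * (b ^ 2 * spR k m r l - r l) ^ 2 :=
    fun l hl => mul_nonneg
      (sub_pos.2 (hm.2.2 l (Nat.lt_succ_iff.1 (Finset.mem_range.1 hl)))).le (sq_nonneg _)
  have h3 : (∑ l ∈ Finset.range (k + 1), (m (l + 1) - m l) * (b ^ 2 * spR k m r l - r l) ^ 2) = 0 := by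
    refine le_antisymm ?_ (Finset.sum_nonneg hp)
    have h4 : (∑ l ∈ Finset.range (k + 1),
        (m (l + 1) - m l) * (b ^ 2 * spR k m r l - r l) ^ 2) / (4 * b ^ 2) ≤ 0 := by linarith
    by_contra h5
    push Not at h5
    exact absurd (div_pos h5 (show 0 < 4 * b ^ 2 by positivity)) (not_lt.2 h4)
  intro l hl
  have h5 := (Finset.sum_eq_zero_iff_of_nonneg hp).1 h3 l (Finset.mem_range.2 (by omega))
  have h6 : 0 < m (l + 1) - m l := sub_pos.2 (hm.2.2 l hl)
  rcases mul_eq_zero.1 h5 with h7 | h7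
  · exact absurd h7 h6.ne'
  · have := pow_eq_zero_iff (n := 2) (by norm_num) |>.1 h7
    linarith

/-- (P1) in the form of the skeleton -/
theorem stat {b : ℝ} (hb : 0 < b) {n : ℕ} {m r : ℕ → ℝ} (hm : Exponents n m)
    (hr : IsMin b n m r) : (∀ l ≤ n, 0 < r l → spR n m r l = r l / b ^ 2) ∧ r n < b ^ 2 := by
  have h := stat_fix hb hm hr.1 hr.2
  have hb2 : 0 < b ^ 2 := by positivity
  refine ⟨fun l hl _ => ?_, ?_⟩
  · rw [eq_div_iff hb2.ne', h l hl]
    ring
  · rw [h n le_rfl]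
    exact mul_lt_of_lt_one_right hb2 (spR_lt_one hm hr.1.2.1 le_rfl)

end Vale.Agent.P146.Pw2
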